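import Vale.Agent.P283B.MK.Eng

/-!
# P283B, block SP: the alpha invariant of a central pair
-/

set_option linter.unusedVariables false

open Set

noncomputable section

namespace Vale.Agent.P283B.Als

open P287D Mk Mk.En

variable {K : Type} [Field K] [Algebra ℂ K] {d n N : ℕ} {Γ H Θ Γ₀ : BD K} {P : Pl K}

/-- an lc place of a small perturbation of `Γ` is an lc place of `Γ` -/
theorem new (lc : ∀ Λ Γ : BD K, Rel d Λ ∅ Γ → Cf d Λ Γ (Phi n) All → ELc d 0 Γ All →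
      ∃ g, LcC d N Γ All g) (N0 : 0 < N) (i : In d n Γ H) (d1 : Dsc H Θ) (n1 : Nef (-Θ))
    (l1 : ∀ w, 0 ≤ ld (d + 1) Θ w) (z1 : ld (d + 1) Θ P = 0)
    (o1 : ∀ w, On d H w → ld (d + 1) Θ w ≤ ld (d + 1) Γ w ∨
      (ld (d + 1) Γ w = 0 ∧ ld (d + 1) Θ w ≤ 1 / (N + 1)))
    (k0 : Klt (d + 1) Γ₀) (b0 : Bdy d H Γ₀) (n0 : Nef (-Γ₀)) (g0 : Big (-Γ₀))
    (z0 : ld (d + 1) Γ₀ P ≤ 1) : ld (d + 1) Γ P = 0 := by
  classical
  have hK := i.ff
  have ld' : ∀ (B : BD K) w, ld (d + 1) B w = cn K (d + 1) w - B w + 1 := fun _ _ => rfl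
  have N1 : (0 : ℝ) < N := Nat.cast_pos.2 N0
  have n' : (0 : ℝ) < n := Nat.cast_pos.2 i.n0
  obtain ⟨Y, sY, bY, qY, dY, oY⟩ := extr d K hK H Γ₀ 0 {P} i.smp i.big (by simpa using n0) b0 k0
    (finite_singleton _) (forall_eq.2 z0)
  have ft : FTo d Y ∅ := ⟨sY, bY, by rw [mx_empty]; exact .zero sY, Γ₀, 0, k0, fun w o =>
    ((oY w).1 o).elim (b0 w) fun e => e ▸ add_le_iff_nonpos_left.1 z0, by simpa using n0,
    by simpa using g0⟩
  obtain ⟨l, hl⟩ : ∃ l : BD K, ∀ w, l w =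
      if w = P then (0 : ℝ) else if ld (d + 1) Γ w = 0 then 1 / (N + 1 : ℝ) else ld (d + 1) Γ w :=
    ⟨_, fun _ => rfl⟩
  obtain ⟨Z, hZ⟩ := Gs.exists_hull neg' hK sY qY (Z := ld (d + 1) Γ - l)
    (((Lg.fin_on hK sY bY i.smp.car).insert P).subset fun w y => by
      by_contra z
      rw [mem_insert_iff, not_or] at z
      exact y.2 (by rw [Pi.sub_apply, hl, if_neg z.1,
        if_neg fun g => z.2 ⟨y.1, (i.pos w g).ne'⟩, sub_self]))
  have dB := (Dsc.of_prn sY i.prn).add hZ.1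
  have vB : ∀ w, On d Y w → ld (d + 1) (Γ + Z) w = l w := fun w o => by
    rw [ld_add, hZ.2 w o, Pi.sub_apply, sub_sub_cancel]
  have ph : ∀ w, On d Y w → 1 - l w ∈ Phi n := fun w o => by
    rw [hl]
    split_ifs with a b
    · rw [sub_zero]; exact Lcb.phi_one
    · exact ⟨n, N + 1, le_rfl, N.succ_pos, by push_cast; field_simp⟩
    · obtain ⟨z, e⟩ := i.int w
      have := i.bdy w (((oY w).1 o).resolve_right a)
      have y : (z : ℝ) ≤ n := e ▸ mul_le_of_le_one_right n'.le (by rw [ld]; linarith)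
      exact ⟨z, 1, by exact_mod_cast y, one_pos, by rw [← e]; push_cast; field_simp⟩
  have qB : CarQ (Γ + Z) := Gs.carQ_of neg' hK sY bY dB fun w o => by
    obtain ⟨j, m, -, -, e⟩ := ph w o
    obtain ⟨z, y⟩ := (Api.mod.isb d K hK).2.2 w
    refine ⟨z + (1 - j / (n * m)), ?_⟩
    have := vB w o
    rw [ld'] at this
    push_cast
    linarith
  have le : ∀ w, On d Y w → ld (d + 1) Θ w ≤ l w := fun w o => by
    rw [hl]
    split_ifs with a b
    · rw [a, z1]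
    · exact (o1 w (((oY w).1 o).resolve_right a)).elim
        (fun y => y.trans (b ▸ by positivity)) fun y => y.2
    · exact (o1 w (((oY w).1 o).resolve_right a)).resolve_right fun y => b y.1
  have le1 : Γ + Z ≤ Θ := Pr.hart_le res' hK sY bY dB (dY.trans d1) fun w o => by
    linarith [vB w o, le w o, ld' (Γ + Z) w, ld' Θ w]
  obtain ⟨Y', D, c, ft', q', hD, qD, o', zd⟩ := ftm0 d K hK Y (-(Γ + Z)) ∅ 0 ft qY dB.neg qB.neg
    (by simpa only [zero_smul, add_zero] using n1.psef.mono (neg_le_neg le1))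
  have zd := (zd c le_rfl).1
  rw [mx_empty, smul_zero, add_zero] at zd
  have v' : ∀ w, On d Y' w → On d Y w ∧ ld (d + 1) (-D) w = l w := fun w o => by
    refine ⟨((o' w).1 o).1, ?_⟩
    rw [← vB w ((o' w).1 o).1, ld', ld', Pi.neg_apply, hD.2 w o, Pi.neg_apply, neg_neg]
  have le2 : -Θ ≤ D := Mm.le_hull neg' hK ft'.big n1 hD.1 fun w o => by
    rw [hD.2 w o]
    exact neg_le_neg le1 w
  obtain ⟨g, ⟨-, g1⟩, g2⟩ := lc Y' (-D) ⟨⟨ft'.smp, ft'.big, hD.1.neg, qD.neg, fun w o => by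
    linarith [Lcb.phi_nn i.n0 (ph w (v' w o).1), (v' w o).2,
      show ld (d + 1) (-D) w = dsc (d + 1) (-D) w + 1 from rfl]⟩, ft', 0, by
      simpa using zd.smp.nef⟩ (fun w o _ => (v' w o).2 ▸ ph w (v' w o).1) fun w _ => by
    have := le2 w
    rw [Pi.neg_apply] at this
    linarith [l1 w, ld' Θ w, ld' (-D) w, show (-D) w = -D w from rfl]
  have up : ∀ w, On d Y w → N * (cn K (d + 1) w + 1) - w.ord g ≤ N * l w := fun w o => by
    have a := g1 w trivial
    have b := zd.nn w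
    have e := vB w o
    rw [ld'] at e
    simp only [Pi.sub_apply, Pi.neg_apply, Pi.zero_apply] at a b
    nlinarith
  have pr : (N : ℝ)⁻¹ • dv g - Γ ∈ Prn K := sub_mem ((Prn K).smul_mem _ (dv_mem_Prn g)) i.prn
  have eq := Api.mod.zero d K hK _ pr (sub_nonneg.2 (Pr.hart_le res' hK sY bY (.of_prn sY i.prn)
    (.of_prn sY ((Prn K).smul_mem _ (dv_mem_Prn g))) fun w o => by
      rw [Pi.smul_apply, smul_eq_mul, dv_apply, le_inv_mul_iff₀ N1]
      have a := up w o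
      have e := ld' Γ w
      rw [hl] at a
      split_ifs at a with x y
      · nlinarith [in_lc i w]
      · obtain ⟨z, t⟩ := (Api.mod.isb d K hK).2.2 w
        have : ((N * (z + 1) - w.ord g : ℤ) : ℝ) < (1 : ℤ) := by
          push_cast
          rw [← t]
          exact a.trans_lt (by rw [mul_one_div, div_lt_one (by positivity)]; linarith)
        have : ((N * (z + 1) - w.ord g : ℤ) : ℝ) ≤ (0 : ℤ) :=
          Int.cast_le.2 (Int.lt_add_one_iff.1 (Int.cast_lt.1 this))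
        push_cast at this
        rw [← t] at this
        nlinarith
      · nlinarith))
  have a := up P ((oY P).2 (.inr rfl))
  have b := congrFun eq P
  rw [hl, if_pos rfl] at a
  rw [Pi.sub_apply, Pi.smul_apply, smul_eq_mul, dv_apply, Pi.zero_apply, sub_eq_zero,
    inv_mul_eq_iff_eq_mul₀ N1.ne'] at b
  refine le_antisymm (nonpos_of_mul_nonpos_right (a := (N : ℝ)) ?_ N1) (in_lc i P)
  rw [ld']
  linarith

/-- **ALSI** -/
theorem alsi (lcg : LCG d) (n : ℕ) (h C : ℝ) (n0 : 0 < n) (C1 : 1 ≤ C) : ∃ x : ℝ, 0 < x ∧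
    ∀ (K : Type) [Field K] [Algebra ℂ K] (Γ H : BD K), In d n Γ H → Cen C (ld (d + 1) Γ) H →
      (∀ w, On d H w → H w ≤ h) → ∀ G, Rep H G → ∀ w,
        x * G w ≤ C * (ld (d + 1) Γ w + x * H w) := by
  obtain ⟨N, N0, lc⟩ := lcg n n0
  obtain ⟨x, x0, hx⟩ : ∃ x : ℝ, 0 < x ∧ x * h ≤ 1 / (N + 1) :=
    ⟨1 / (N + 1) / (|h| + 1), by positivity, by
      rw [div_mul_eq_mul_div, div_le_iff₀ (by positivity)]
      exact mul_le_mul_of_nonneg_left (by linarith [le_abs_self h]) (by positivity)⟩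
  refine ⟨x, x0, fun K _ _ Γ H i ce bh G r w => by_contra fun k => ?_⟩
  have hK := i.ff
  have cG := r.car i.smp.car
  have v : ∀ (t : ℝ) w, ld (d + 1) (Γ - x • H + t • G) w =
      ld (d + 1) Γ w + x * H w - t * G w := fun t w => by rw [ld_add, ld_sub]; rfl
  have kl : ∀ w, 0 < ld (d + 1) Γ w + x * H w := fun w => by
    rcases (in_lc i w).eq_or_lt with z | z
    · linarith [mul_pos x0 (i.pos w z.symm)]
    · linarith [mul_nonneg x0.le (i.nn w)]
  have gw : 0 < G w := (pos_iff_pos_of_mul_pos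
    ((mul_pos (one_pos.trans_le C1) (kl w)).trans (not_le.1 k))).1 x0
  obtain ⟨c, c0, c1, P, -, p1, p2⟩ := lct0 hK
    (sub_mem (Prn_le_Car i.prn) ((Car K).smul_mem x i.smp.car)) cG cG (S := All)
    (fun _ _ _ _ => trivial) (fun Q _ => by rw [ld_sub]; exact (kl Q).le) trivial gw
  have c2 : ∀ Q, c * G Q ≤ ld (d + 1) Γ Q + x * H Q := fun Q => ld_sub Γ (x • H) Q ▸ c1 Q trivial
  have p3 : ld (d + 1) Γ P + x * H P = c * G P := ld_sub Γ (x • H) P ▸ p2
  have cx : C * c < x := lt_of_mul_lt_mul_right (by nlinarith [c2 w, not_le.1 k]) gw.le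
  have e : ∀ t : ℝ, -(Γ - x • H + t • G) - (x - t) • H ∈ Prn K := fun t => by
    convert sub_mem (neg_mem i.prn) ((Prn K).smul_mem t r.2) using 1
    module
  have N1 : 1 / ((N : ℝ) + 1) ≤ 1 := by
    rw [div_le_one (by positivity)]; linarith [N.cast_nonneg (α := ℝ)]
  have on : ∀ t : ℝ, 0 ≤ t → ∀ w, On d H w → ld (d + 1) (Γ - x • H + t • G) w ≤ ld (d + 1) Γ w ∨
      (ld (d + 1) Γ w = 0 ∧ ld (d + 1) (Γ - x • H + t • G) w ≤ 1 / (N + 1)) := fun t t0 w o => by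
    have := mul_nonneg t0 (r.1 w)
    rw [v]
    exact (i.sup w o).imp (fun z => by rw [z]; linarith) fun z =>
      ⟨z, by linarith [mul_le_mul_of_nonneg_left (bh w o) x0.le]⟩
  obtain ⟨s, s0, s1, s2⟩ : ∃ s : ℝ, 0 < s ∧ s ≤ 1 ∧ s * (c * G P) ≤ 1 :=
    ⟨(c * G P + 1)⁻¹, by positivity, inv_le_one_of_one_le₀ (by nlinarith), by
      rw [inv_mul_le_iff₀ (by positivity)]; linarith⟩
  have t0 : 0 ≤ (1 - s) * c := mul_nonneg (sub_nonneg.2 s1) c0
  have t1 : 0 < x - (1 - s) * c := by nlinarith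
  have z := new (P := P) (lc K hK) N0 i (Θ := Γ - x • H + c • G)
    (neg_neg (Γ - x • H + c • G) ▸ (((Dsc.refl i.smp).smul _).congr (e c)).neg)
    ((i.smp.nef.smul (by nlinarith)).congr (e c)) (fun w => by rw [v]; linarith [c2 w])
    (by rw [v, p3, sub_self]) (on c c0) (Γ₀ := Γ - x • H + ((1 - s) * c) • G) (fun w => by
      have := v ((1 - s) * c) w
      rw [ld] at this
      nlinarith [c2 w, kl w]) (fun w o => by
      have a := i.bdy w o
      obtain b | ⟨-, b⟩ := on _ t0 w o <;> simp only [ld] at b <;> linarith)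
    ((i.smp.nef.smul t1.le).congr (e _)) ((i.big.smul t1).congr (e _)) (by rw [v]; nlinarith)
  obtain ⟨a, b⟩ := ce P z
  have := mul_le_mul_of_nonneg_left (b G r) c0
  nlinarith

end Vale.Agent.P283B.Als
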