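import Vale.Agent.P283B.SP.St
import Vale.Agent.P283B.SP.AlsA

/-!
# P283B, block SP: the alpha invariant
-/

set_option linter.unusedVariables false

noncomputable section

namespace Vale.Agent.P283B.Sp

open P287D Mk Mk.En

theorem Al.lcg {d : ℕ} (h : LC d) : LCG d := fun q q0 => by
  obtain ⟨N, N0, h⟩ := h q q0
  refine ⟨N, N0, fun K _ _ hK Λ Γ r c e => ?_⟩
  by_cases z : Nonempty (Pl K)
  · obtain ⟨g, ⟨a, b⟩, x⟩ := h K hK Λ Γ ∅ z.some r (fun P o _ => c P o trivial) fun P _ => e P trivial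
    have u : ∀ P, Ov ∅ z.some P := fun P G y t => by
      rw [Api.mod.zero d K hK G (by simpa using y.2) y.1] at t
      exact absurd t (lt_irrefl _)
    exact ⟨g, ⟨a, fun P _ => b P (u P)⟩, fun P _ => x P (u P)⟩
  · exact ⟨1, ⟨one_ne_zero, fun P _ => (z ⟨P⟩).elim⟩, fun P _ => (z ⟨P⟩).elim⟩

/-- **SALS1** -/
theorem sals1 : SALS1 := fun lc d n b C b0 => by
  rcases n.eq_zero_or_pos with rfl | n0
  · exact ⟨1, one_pos, fun K _ _ Γ H G i => absurd i.n0 (lt_irrefl _)⟩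
  obtain ⟨x, x0, h⟩ := Als.alsi (Al.lcg (lc d)) n 1 (max C 1) n0 (le_max_right _ _)
  have b1 : (1 : ℝ) ≤ b := Nat.one_le_cast.2 b0
  have c1 : 0 < max C 1 := one_pos.trans_le (le_max_right _ _)
  refine ⟨min x 1 / max C 1, by positivity, fun K _ _ Γ H G i ce o r w => ?_⟩
  have := h K Γ H i (fun u z => ⟨(ce u z).1, fun G r => ((ce u z).2 G r).trans
    (mul_le_mul_of_nonneg_right (le_max_left _ _) (i.nn u))⟩) (fun w p => (o w p).elim
      (fun e => e.trans_le zero_le_one) fun e => by nlinarith [i.nn w]) G r w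
  have l := in_lc i w
  have g : 0 ≤ H w := i.nn w
  rw [div_mul_eq_mul_div, div_le_iff₀' c1]
  rcases le_total x 1 with e | e
  · rw [min_eq_left e]
    exact this.trans (mul_le_mul_of_nonneg_left (by nlinarith) c1.le)
  · rw [min_eq_right e]
    refine le_of_mul_le_mul_left ?_ x0
    nlinarith [mul_nonneg c1.le (mul_nonneg (sub_nonneg.2 e) l),
      mul_nonneg c1.le (mul_nonneg x0.le (mul_nonneg (sub_nonneg.2 b1) g))]

/-- **SALS** -/
theorem sals : SALS := fun su a1 d n b C => by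
  rcases b.eq_zero_or_pos with rfl | b0
  · exact ⟨1, one_pos, fun K _ _ Γ Ψ G p => absurd p.b2 (by omega)⟩
  obtain ⟨t, t0, h⟩ := a1 (d + 1) (n * b) b (max C 1) b0
  refine ⟨t, t0, fun K _ _ Γ Ψ G p r Q => ?_⟩
  obtain ⟨Γ', H', i, ce, -, -, k⟩ := su K d n b C Γ Ψ 0 p
  obtain ⟨G', r', k'⟩ := (k rfl).2 G r
  obtain ⟨w, e, e0, a, z, y⟩ := k' Q
  have := h _ Γ' H' G' i ce (k rfl).1 r' w
  rw [z, mul_zero, add_zero, y] at this
  exact le_of_mul_le_mul_left (by nlinarith) e0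

end Vale.Agent.P283B.Sp
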