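import Vale.Agent.P283B.SP.St
import Vale.Agent.P283B.LL.Rm

/-!
# P283B, block SP: the cone
-/

set_option linter.unusedVariables false
set_option linter.unusedSectionVars false

open Set
open Vale.Agent.P297Z

noncomputable section

namespace Vale.Agent.P283B.Sp

open P287D Mk Rul Wp Cb Ls.Ot

namespace Co

variable {K E : Type} [Field K] [Field E] [Algebra ℂ K] [Algebra ℂ E] [Algebra K E]
  [IsScalarTower ℂ K E] {n m b : ℕ} {u j : E} {w : Pl E} {Q : Pl K} {C a : ℝ} {L p D : BD K}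

/-- the order of a Laurent polynomial at zero and at infinity -/
theorem trv_le (u0 : u ≠ 0) (t : Trv (algebraMap K E) w) (o : w.ord u ≠ 0) {c : ℤ →₀ K} {i : ℤ}
    (hi : c i ≠ 0) : w.ord (Rul.lp u c) ≤ i * w.ord u := by
  classical
  let τ : ℤ → E := fun i => algebraMap K E (c i) * u ^ i
  have τ0 : ∀ i ∈ c.support, τ i ≠ 0 ∧ w.ord (τ i) = i * w.ord u := fun i z => by
    have y := (map_ne_zero (algebraMap K E)).2 (Finsupp.mem_support_iff.1 z)
    refine ⟨mul_ne_zero y (zpow_ne_zero i u0), ?_⟩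
    rw [Pl.ord_mul _ y (zpow_ne_zero i u0), t.ord, zero_add, Pl.ord_zpow]
  obtain ⟨k, k2, m1⟩ := c.support.exists_min_image (fun i => i * w.ord u)
    ⟨i, Finsupp.mem_support_iff.2 hi⟩
  have s := Finset.sum_induction (fun i => τ i / τ k) (Mx w) (fun a b x y => x.add y) mx_zero
    (s := c.support.erase k) fun i z => by
      obtain ⟨z1, z2⟩ := Finset.mem_erase.1 z
      refine mx_iff.2 (.inr ?_)
      rw [Pl.ord_div _ (τ0 i z2).1 (τ0 k k2).1, (τ0 i z2).2, (τ0 k k2).2, sub_pos]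
      exact (m1 i z2).lt_of_ne fun e => z1 (mul_right_cancel₀ o e).symm
  have e : Rul.lp u c / τ k = 1 + ∑ i ∈ c.support.erase k, τ i / τ k := by
    rw [Rul.lp, Finsupp.sum, Finset.sum_div, ← Finset.add_sum_erase _ _ k2, div_self (τ0 k k2).1]
  have nz : w.rd (Rul.lp u c / τ k) ≠ 0 := by
    rw [e, rd_add (one_mem _) s.mem, Bm.rd_one, (rd_eq_zero s.mem).2 s, add_zero]
    exact one_ne_zero
  have n0 : Rul.lp u c ≠ 0 := fun z => nz (by rw [z, zero_div, Gm.rd_zero])
  have o' := ord_zero_of (e ▸ add_mem (one_mem _) s.mem) nz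
  rw [Pl.ord_div _ n0 (τ0 k k2).1, sub_eq_zero, (τ0 k k2).2] at o'
  exact o' ▸ m1 i (Finsupp.mem_support_iff.2 hi)

theorem exists_zero (r : Ru K u) (hK : FF K n) :
    ∃ w : Pl E, Trv (algebraMap K E) w ∧ 0 < w.ord u := by
  obtain ⟨R, r1, r2⟩ := r.qpl hK Polynomial.prime_X
  refine ⟨R, fun c => by simpa using r1 (.C c), (mx_iff.1 ?_).resolve_left r.ne⟩
  simpa using (r2 .X).2 dvd_rfl

variable (u D) in
/-- the slope -/
def be : BD E := dv u - pb (algebraMap K E) D

variable (u p D a) in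
/-- the polarisation -/
def hh : BD E := pb (algebraMap K E) p + a • (be u D + (0 ⊔ -be u D)) + a • (0 ⊔ -be u D)

theorem hh_apply : hh u a p D w = pb (algebraMap K E) p w + a * |be u D w| := by
  simp only [hh, Pi.add_apply, Pi.smul_apply, smul_eq_mul, Pi.sup_apply, Pi.zero_apply,
    Pi.neg_apply]
  rcases le_total 0 (be u D w) with y | y
  · rw [abs_of_nonneg y, max_eq_left (by linarith)]; ring
  · rw [abs_of_nonpos y, max_eq_right (by linarith)]; ring

theorem be_trv (t : Trv (algebraMap K E) w) : be u D w = w.ord u := by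
  simp [be, t.pb, dv_apply]

theorem be_lies (l : Lies (algebraMap K E) w Q) :
    be u D w = w.ord u - w.ord (algebraMap K E Q.t) * D Q := by
  simp [be, l.pb, dv_apply]

theorem ord_gs (hE : FF E m) (u0 : u ≠ 0) (g : Gs u w Q) {c : ℤ →₀ K} {i : ℤ} (hi : c i ≠ 0)
    (l : ℝ) : w.ord (Rul.lp u c) + l * pb (algebraMap K E) p w ≤ w.ord (algebraMap K E Q.t) *
      (dv (c i) + ((i : ℝ) • D + l • p)) Q + i * be u D w := by
  obtain ⟨-, -, -, -, e⟩ := g.min hE u0 (p := c) fun z => hi (by simp [z])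
  have e := e i hi
  rw [Pl.ord_mul _ ((map_ne_zero _).2 hi) (zpow_ne_zero i u0), g.lies.ord (c i), Pl.ord_zpow] at e
  have e' := (Int.cast_le (R := ℝ)).2 e
  rw [be_lies g.lies, g.lies.pb]
  simp only [Pi.add_apply, Pi.smul_apply, smul_eq_mul, dv_apply]
  push_cast at e'
  linarith

variable (h : Ko n m b C a L p D) (r : Ru K u) (hj : Nj K (n + 1) u j)

include h r

theorem sec_of {l : ℝ} {i : ℤ} {f : K} (v : Vm a p D l i f) :
    Sec (l • hh u a p D) (algebraMap K E f * u ^ i) := by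
  rcases eq_or_ne f 0 with rfl | f0
  · exact .inl (by simp)
  refine .inr fun w => ?_
  have ok := r.ok h.ff
  have e := pb_nonneg (φ := algebraMap K E) (v.2.resolve_left f0) w
  rw [pb_add, pb_add, pb_smul, pb_smul, ok.pb_dv] at e
  have e2 : |(i : ℝ) * be u D w| ≤ l * a * |be u D w| := by
    rw [abs_mul]
    exact mul_le_mul_of_nonneg_right v.1 (abs_nonneg _)
  have e3 := neg_abs_le ((i : ℝ) * be u D w)
  have e4 : be u D w = w.ord u - pb (algebraMap K E) D w := rfl
  simp only [Pi.add_apply, Pi.smul_apply, smul_eq_mul, dv_apply, Pi.zero_apply, hh_apply] at e ⊢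
  rw [Pl.ord_mul _ ((map_ne_zero _).2 f0) (zpow_ne_zero i r.ne), Pl.ord_zpow]
  push_cast
  have e5 : (i : ℝ) * be u D w = i * w.ord u - i * pb (algebraMap K E) D w := by rw [e4]; ring
  nlinarith

include hj

theorem of_sec {l : ℝ} {f : E} (l0 : 0 ≤ l) (hf : Sec (l • hh u a p D) f) :
    ∃ c, f = Rul.lp u c ∧ ∀ i ∈ c.support, Vm a p D l i (c i) := by
  rcases hf with rfl | hf
  · exact ⟨0, by simp [Rul.lp], by simp⟩
  have hE := r.ff h.ff
  have k : ∀ w : Pl E, 0 ≤ w.ord f + l * (pb (algebraMap K E) p w + a * |be u D w|) := fun w => by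
    simpa only [Pi.add_apply, Pi.smul_apply, smul_eq_mul, dv_apply, Pi.zero_apply, hh_apply]
      using hf w
  obtain ⟨c, rfl⟩ := r.lau h.ff (f := f) fun w t o => mem_ord (by
    have := k w
    rw [be_trv t, t.pb, o] at this
    simpa using this)
  refine ⟨c, rfl, fun i hi => ?_⟩
  have c0 := Finsupp.mem_support_iff.1 hi
  have key : ∀ w : Pl E, Trv (algebraMap K E) w → w.ord u ≠ 0 → -(l * a) ≤ i * w.ord u :=
    fun w t o => by
    have x := k w
    have y := (Int.cast_le (R := ℝ)).2 (trv_le r.ne t o c0)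
    have z := mul_le_mul_of_nonneg_left (hj.trv r h.ff t L).2 (mul_nonneg l0 h.a0.le)
    rw [be_trv t, t.pb] at x
    push_cast at y
    nlinarith
  have one : ∀ w : Pl E, Trv (algebraMap K E) w → |w.ord u| ≤ 1 := fun w t => by
    exact_mod_cast (hj.trv r h.ff t L).2
  refine ⟨abs_le.2 ⟨?_, ?_⟩, .inr fun Q => ?_⟩
  · obtain ⟨w, t, o⟩ := exists_zero r h.ff
    have := key w t o.ne'
    rwa [show w.ord u = 1 by have := (abs_le.1 (one w t)).2; omega, Int.cast_one, mul_one] at this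
  · obtain ⟨w, t, o⟩ := exists_zero r.inv h.ff
    rw [Pl.ord_inv] at o
    have := key w t (by omega)
    rw [show w.ord u = -1 by have := (abs_le.1 (one w t)).1; omega] at this
    push_cast at this
    linarith
  · obtain ⟨q, hq⟩ := h.rD.rat Q
    obtain ⟨w, g, e⟩ := exists_gs hE r.tr Q q.num q.pos
    have e0 : (0 : ℝ) < w.ord (algebraMap K E Q.t) := by exact_mod_cast g.lies.e_pos
    have z : be u D w = 0 := by
      have e' : (q.den : ℝ) * w.ord u = q.num * w.ord (algebraMap K E Q.t) := by exact_mod_cast e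
      have d : (q.den : ℝ) ≠ 0 := by exact_mod_cast q.den_nz
      rw [be_lies g.lies, hq, Rat.cast_def]
      field_simp
      linarith
    have x := k w
    have y := ord_gs (p := p) (D := D) hE r.ne g c0 l
    rw [z] at x y
    refine nonneg_of_mul_nonneg_right (a := _) ?_ e0
    simp only [abs_zero, mul_zero, add_zero] at x y
    linarith

theorem ld_nn (Q : Pl K) : 0 ≤ ld (n + 1) L Q := by
  obtain ⟨z, hz⟩ := h.int Q
  have : (0 : ℝ) < m := by exact_mod_cast h.m0
  exact nonneg_of_mul_nonneg_right (hz ▸ Nat.cast_nonneg z) this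

theorem rq : CarQ (a • (0 ⊔ -be u D)) ∧ CarQ (pb (algebraMap K E) p + a • (be u D + (0 ⊔ -be u D))) ∧
    ∃ (k : ℕ) (s : Finset K), 0 < k ∧ Nz s ∧ (k : ℝ) • D = mx s ∧
      (k : ℝ) • (0 ⊔ -be u D) = mx (sy (u ^ k) s) := by
  have hE := r.ff h.ff
  have ok := r.ok h.ff
  obtain ⟨k, s, k0, ns, hs⟩ := Rl.smp_carQ h.smp h.rD
  have k1 : (0 : ℝ) < k := by exact_mod_cast k0
  have e : (k : ℝ) • (0 ⊔ -be u D) = mx (sy (u ^ k) s) := by
    rw [mx_sy hE ns (pow_ne_zero k r.ne), ← hs, pb_smul]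
    funext w
    simp only [be, Pi.sub_apply, Pi.smul_apply, smul_eq_mul, Pi.sup_apply, Pi.zero_apply,
      Pi.neg_apply, dv_apply, Pl.ord_pow, mul_max_of_nonneg _ _ k1.le]
    push_cast
    congr 1 <;> ring
  have c : CarQ (0 ⊔ -be u D) := ⟨k, k0, e ▸ mx_mem_CarZ _⟩
  obtain ⟨x, rfl⟩ := h.ra
  exact ⟨c.qsmul x, (ok.carQ h.rp).add ((((carQ_dv u).sub (ok.carQ h.rD)).add c).qsmul x),
    k, s, k0, ns, hs, e⟩

theorem cen : Cen (2 * max C 1) (ld (n + 2) (Rul.up j L)) (hh u a p D) := fun w z => by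
  have hE := r.ff h.ff
  have ok := r.ok h.ff
  have a0 := h.a0
  have C1 := le_max_right C 1
  have key : (0 < hh u a p D w ∧ ∀ (l : ℝ) (c : ℤ →₀ K) i, 0 ≤ l → c i ≠ 0 → Vm a p D l i (c i) →
      w.ord (Rul.lp u c) + l * hh u a p D w ≤ l * (2 * max C 1 * hh u a p D w)) := by
    rw [hh_apply]
    rcases ok w with t | ⟨Q, l⟩
    · have e := (hj.trv r h.ff t L).1
      rw [z] at e
      have e' : |(w.ord u : ℝ)| = 1 := by linarith
      rw [be_trv t, t.pb, e']
      refine ⟨by linarith, fun l c i l0 c0 v => ?_⟩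
      have y := (Int.cast_le (R := ℝ)).2 (trv_le r.ne t (fun o => by simp [o] at e') c0)
      have x := le_abs_self ((i : ℝ) * w.ord u)
      rw [abs_mul, e', mul_one] at x
      push_cast at y
      nlinarith [v.1, mul_nonneg (mul_nonneg l0 a0.le) (sub_nonneg.2 C1)]
    have e0 : (0 : ℝ) < w.ord (algebraMap K E Q.t) := by exact_mod_cast l.e_pos
    have g1 := hj.ge h.ff hE r.tr L w
    have g2 := ld_nn h r hj Q
    have g := hj.gs_of h.ff hE r.tr l (Γ := L) (by rw [z, l.pb]; positivity)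
    rw [z, l.pb] at g1
    obtain ⟨p0, pc⟩ := h.cen Q (le_antisymm (by nlinarith) g2)
    have b0 := abs_nonneg (be u D w)
    refine ⟨by rw [l.pb]; positivity, fun x c i x0 c0 v => ?_⟩
    have y := ord_gs (p := p) (D := D) hE r.ne g c0 x
    have v1 := abs_le.1 v.1
    have s0 : 0 ≤ x - i / a := by rw [sub_nonneg, div_le_iff₀ a0]; exact v1.2
    have G := v.2.resolve_left c0
    have s1 : (dv (c i) + ((i : ℝ) • D + x • p)) Q ≤ C * (2 * x * p Q) := by
      rcases x0.eq_or_lt with rfl | x1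
      · have := congrFun (Fs.rep_zero h.ff (β := (i : ℝ) • D + (0 : ℝ) • p) (by
          rw [show (i : ℝ) = 0 by linarith]; simp) (v.2.rep c0)) Q
        rw [this]; simp
      have R : Rep p ((2 * x)⁻¹ • (dv (c i) + ((i : ℝ) • D + x • p) + (x - i / a) • p)) := by
        refine ⟨smul_nonneg (by positivity) (add_nonneg G (smul_nonneg s0 h.nn)), ?_⟩
        convert Submodule.smul_mem _ (2 * x)⁻¹ (sub_mem (dv_mem_Prn (c i))
          (Submodule.smul_mem _ (i / a) h.lin)) using 1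
        funext P
        simp only [Pi.add_apply, Pi.sub_apply, Pi.smul_apply, smul_eq_mul]
        field_simp
        ring
      have := pc _ R
      rw [Pi.smul_apply, smul_eq_mul, inv_mul_le_iff₀ (by positivity), Pi.add_apply,
        Pi.smul_apply _ p, smul_eq_mul] at this
      nlinarith [mul_nonneg s0 p0.le]
    have s2 : (i : ℝ) * be u D w ≤ x * a * |be u D w| := (le_abs_self _).trans (by
      rw [abs_mul]; exact mul_le_mul_of_nonneg_right v.1 b0)
    have s3 := mul_le_mul_of_nonneg_left (s1.trans (mul_le_mul_of_nonneg_right (le_max_left C 1)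
      (by positivity))) e0.le
    rw [l.pb] at y ⊢
    nlinarith [mul_nonneg (mul_nonneg (mul_nonneg x0 a0.le) b0) (sub_nonneg.2 C1)]
  refine ⟨key.1, fun G hG => ?_⟩
  obtain ⟨q1, q2, -⟩ := rq h r hj
  have := On.rep_ind hE (q2.add q1) (p := fun t G => G w ≤ t * (2 * max C 1 * hh u a p D w))
    (by simp) (fun _ _ _ _ x y => by rw [add_mul]; exact add_le_add x y)
    (fun _ _ c c0 x => by rw [mul_assoc]; exact mul_le_mul_of_nonneg_left x c0)
    (fun k f f0 s => ?_) hG
  · simpa using this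
  obtain ⟨c, rfl, hc⟩ := of_sec h r hj (Nat.cast_nonneg k) s
  obtain ⟨i, hi⟩ := Finsupp.support_nonempty_iff.2 fun z : c = 0 => f0 (by simp [z, Rul.lp])
  exact key.2 k c i (Nat.cast_nonneg k) (Finsupp.mem_support_iff.1 hi) (hc i hi)

theorem pre : Pre (n + 1) m b (2 * max C 1) (Rul.up j L)
    (pb (algebraMap K E) p + a • (be u D + (0 ⊔ -be u D))) (a • (0 ⊔ -be u D)) := by
  have hE := r.ff h.ff
  have ok := r.ok h.ff
  have a0 := h.a0
  obtain ⟨q1, q2, k, s, k0, ns, hs, e⟩ := rq h r hj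
  have k1 : (0 : ℝ) < k := by exact_mod_cast k0
  have sB : Smp (0 ⊔ -be u D) := .of_smul k1 (e ▸ smp_mx _)
  have pr : hh u a p D - (2 * a) • (0 ⊔ -be u D) ∈ Prn E := by
    convert add_mem (ok.prn h.lin) (Submodule.smul_mem _ a (dv_mem_Prn u)) using 1
    rw [pb_sub, pb_smul, hh, be]
    module
  have am : AmpOn (0 ⊔ -be u D) (hh u a p D) := (sB.ampOn_smul (by positivity)).congr pr
  have am' : AmpOn (pb (algebraMap K E) 0 + mx (sy (u ^ k) s)) (hh u a p D) := by
    rw [pb_zero, zero_add, ← e]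
    exact am.smul_left k1
  have on : ∀ w, On (n + 1) (hh u a p D) w → (Trv (algebraMap K E) w ∧ w.ord u ≤ 0) ∨
      ∃ P, Gs u w P ∧ be u D w = 0 ∧ On n D P := fun w o => by
    rcases on_sy h.ff hE (pow_ne_zero k r.ne) Smp.zero ns
      ((Pr.on_iff res' hE am'.smp_left am').2 o) with ⟨t, y⟩ | ⟨P, l, g, g0, y1, y2, y3, y4⟩
    · refine .inl ⟨t, not_lt.1 fun z => ?_⟩
      have := (big_iff_dim h.ff Eff.zero).1 (y (by rw [Pl.ord_pow]; positivity))
      rw [(fld_eq_bot_iff h.ff).1 (fld_prn h.ff (zero_mem _))] at this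
      omega
    refine .inr ⟨P, ⟨l, g, k, g0, k0, y1, y2⟩, ?_, ?_⟩
    · rw [Pl.ord_mul _ ((map_ne_zero _).2 g0) (pow_ne_zero k r.ne), l.ord g, y3, Pl.ord_pow] at y1
      have y5 : (k : ℝ) * D P = P.mz s := congrFun hs P
      have y6 := congrArg (Int.cast (R := ℝ)) y1
      push_cast at y6
      rw [be_lies l]
      refine mul_left_cancel₀ k1.ne' ?_
      linear_combination y6 - (w.ord (algebraMap K E P.t) : ℝ) * y5
    · rw [zero_add, ← hs] at y4
      exact (Pr.on_iff res' h.ff h.smp (h.smp.ampOn_smul k1)).2 y4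
  have trv : ∀ w : Pl E, Trv (algebraMap K E) w → w.ord u ≤ 0 →
      (pb (algebraMap K E) p + a • (be u D + (0 ⊔ -be u D))) w = 0 := fun w t o => by
    have o' : (w.ord u : ℝ) ≤ 0 := by exact_mod_cast o
    simp [t.pb, be_trv t, o']
  refine ⟨hE, h.m0, h.b2, add_mem (ok.prn h.prn) (dv_mem_Prn j), fun w => ?_, am.smp,
    am'.big_iff.1 (big_sy hE (fun x => ?_) (pow_ne_zero k r.ne) Smp.zero ns
      (by rw [zero_add, ← hs]; exact h.big.smul k1)), sB.smul a0.le, am.dsc'.smul a, q2, q1,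
    add_nonneg (pb_nonneg _ h.nn) (smul_nonneg a0.le fun w => ?_), smul_nonneg a0.le le_sup_left,
    fun w o => ?_, fun w o => ?_, cen h r hj⟩
  · have nn : 0 ≤ ld (n + 2) (Rul.up j L) w :=
      (pb_nonneg _ (ld_nn h r hj) w).trans (hj.ge h.ff hE r.tr L w)
    obtain ⟨z, hz⟩ : ∃ z : ℤ, m * ld (n + 2) (Rul.up j L) w = z := by
      obtain ⟨c, hc⟩ := cn_int (n := n + 2) w
      simp only [ld, dsc, Rul.up, Pi.sub_apply, Pi.add_apply, dv_apply, hc]
      rcases ok w with t | ⟨Q, l⟩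
      · exact ⟨m * (c - w.ord j + 1), by rw [t.pb]; push_cast; ring⟩
      obtain ⟨z, hz⟩ := h.int Q
      obtain ⟨c', hc'⟩ := cn_int (n := n + 1) Q
      simp only [ld, dsc, Pi.sub_apply, hc'] at hz
      exact ⟨m * (c - w.ord j + 1) - w.ord (algebraMap K E Q.t) * (m * (c' + 1) - z), by
        rw [l.pb]; push_cast; linear_combination (w.ord (algebraMap K E Q.t) : ℝ) * hz⟩
    obtain ⟨y, rfl⟩ := Int.eq_ofNat_of_zero_le (a := z) (by
      exact_mod_cast hz ▸ mul_nonneg (Nat.cast_nonneg m) nn)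
    exact ⟨y, by exact_mod_cast hz⟩
  · refine (Subfield.closure_le (t := (Gm.Cl _).toSubfield)).2 ?_ (r.cl ▸ Subfield.mem_top x)
    rintro _ (y | ⟨_, rfl⟩)
    · exact Gm.sub_Cl (.inl y)
    · exact Gm.mem_Cl.2 ((Gm.mem_Cl.1 (Gm.sub_Cl (.inr rfl))).of_pow k0)
  · simp only [Pi.add_apply, Pi.sup_apply, Pi.zero_apply, Pi.neg_apply]
    linarith [le_max_right 0 (-be u D w)]
  · rcases on w o with ⟨t, y⟩ | ⟨P, g, y, z⟩
    · refine ⟨1, one_pos, ⟨0, by rw [trv w t y]; simp⟩, ?_⟩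
      rw [trv w t y, (hj.trv r h.ff t L).1]
      simp
    obtain ⟨x, x0, ⟨z1, x1⟩, ⟨z2, x2⟩, x3⟩ := h.idx P z
    have y' := be_lies (u := u) (D := D) g.lies
    obtain ⟨d, hd⟩ := g.dvd r h.ff (r := x) (k := z1) (by
      have : (x : ℝ) * w.ord u = z1 * w.ord (algebraMap K E P.t) := by
        rw [← x1]; linear_combination x * y - x * y'
      exact_mod_cast this)
    have e0 := g.lies.e_pos
    obtain ⟨d, rfl⟩ := Int.eq_ofNat_of_zero_le (a := d) (by
      refine nonneg_of_mul_nonneg_right ?_ e0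
      rw [← hd]; positivity)
    have hd' : (x : ℝ) = w.ord (algebraMap K E P.t) * d := by exact_mod_cast hd
    have v : (pb (algebraMap K E) p + a • (be u D + (0 ⊔ -be u D))) w =
        w.ord (algebraMap K E P.t) * p P := by simp [y, g.lies.pb]
    refine ⟨d, Nat.pos_of_ne_zero fun z => by simp [z] at hd; omega, ⟨z2, ?_⟩, ?_⟩
    · rw [v, ← x2, hd']; ring
    · rw [v, hj.gs h.ff hE r.tr g]
      exact le_of_eq_of_le (by rw [hd']; ring) x3
  · rcases on w o with ⟨t, y⟩ | ⟨P, g, y, z⟩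
    · rcases y.eq_or_lt with z | z
      · exact .inl (by simp [be_trv t, z])
      have := hj.trv r h.ff t L
      have z' : (w.ord u : ℝ) ≤ -1 := by exact_mod_cast Int.le_sub_one_of_lt z
      rw [abs_of_nonpos (by linarith)] at this
      exact .inr (by rw [trv w t y]; linarith [this.1, this.2])
    · exact .inl (by simp [y])

end Co

theorem cone : CONE := fun K _ _ n m b C a L p D h => by
  have r : Ru K (RatFunc.X : RatFunc K) := ⟨RatFunc.transcendental_X, RatFunc.adjoin_X⟩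
  obtain ⟨j, hj⟩ := exists_nj h.ff (r.ff h.ff) r.tr
  exact ⟨_, _, _, Co.pre h r hj, fun l f => Co.of_sec h r hj, fun l i u => Co.sec_of h r⟩

end Vale.Agent.P283B.Sp
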