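import Vale.Agent.P283B.SP.St
import Vale.Agent.P283B.LL.Drop2
import Vale.Agent.P287D.Ad.All
import Vale.Agent.P287D.Ba.PosOn

/-!
# P283B, block SP: the model on which minus the lc place is ample (row DATA)
-/

open Set

noncomputable section

namespace Vale.Agent.P283B.Sp

open P287D Lcb

namespace Da

variable {K : Type} [Field K] [Algebra ℂ K] {n : ℕ} {Λ Y Z β Γ : BD K} {s : Finset K}
  {R E : Pl K}

/-- a class whose discrepancies do not vanish at the exceptional places -/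
theorem exists_th (hK : FF K (n + 1)) (hΛ : Smp Λ) (b : Big Λ) :
    ∃ Θ ∈ Car K, ∀ P, dsc (n + 1) Θ P = 0 → On n Λ P := by
  classical
  obtain ⟨u, κ, t, -, -, -, -, hu⟩ := Api.mod.ex n K hK ∅ ∅ finite_empty finite_empty (empty_subset _)
  choose! h h1 h2 using hu
  have fin := Api.mod.exc n K hK _ _ t.smp t.big hΛ b
  have nn : ∀ P ∈ fin.toFinset, 0 ≤ h P := fun P p =>
    have o := (fin.mem_toFinset.1 p).1
    Pr.hart res' hK t.smp t.big (h2 P o).1 fun Q q => (h2 P o).2 Q q ▸ P.δ_nonneg Q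
  refine ⟨κ - ∑ P ∈ fin.toFinset, h P, sub_mem t.hull.1.car (sum_mem fun P p =>
    (h2 P (fin.mem_toFinset.1 p).1).1.car), fun P e => by_contra fun z => ?_⟩
  have s0 : 0 ≤ (∑ P ∈ fin.toFinset, h P) P := Finset.sum_nonneg nn P
  rw [dsc_sub] at e
  by_cases o : On n (mx u) P
  · have p := fin.mem_toFinset.2 ⟨o, z⟩
    have := Finset.single_le_sum nn p P
    rw [(h2 P o).2 P o, P.δ_self] at this
    have k : dsc (n + 1) κ P = 0 := sub_eq_zero.2 (t.hull.2 P o).symm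
    linarith
  · linarith [t.pos P o]

theorem prn_of (hK : FF K n) (h : Λ ∈ Prn K) (d : Dsc Λ β) : β ∈ Prn K := by
  have k : ∀ {γ}, Dsc Λ γ → Eff γ := fun ⟨ε, e, a, _⟩ =>
    .of_smul e (a.eff.congr (by simpa using h))
  exact Fs.eff_anti hK (k d) (k d.neg)

theorem res_pos (hK : FF K (n + 1)) (o : Ov s R E) (p : res E (mx s) ∈ Prn E.κ) (c : β ∈ Car K)
    (e : β E = 0) (h : ∀ P, Ov s R P → 0 ≤ β P) : 0 ≤ res E β := by
  obtain ⟨G, a, b⟩ := Asm.spg Api.mod Api.neg Asm.ax.csec hK c h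
  have := res'.nn n K hK E _ (add_mem c a.dsc.car) b (by rw [Pi.add_apply, e, a.eq o, add_zero])
  rwa [res_add hK E c a.dsc.car, Ba.prn_zero (Gm.ff_κ E hK) (prn_of (Gm.ff_κ E hK) p
    (res'.des n K hK _ _ E a.dsc)) (res'.nn n K hK E _ a.dsc.car a.nn (a.eq o)), add_zero] at this

/-- the index along the prime divisors of `E` -/
theorem idx (hK : FF K (n + 2)) (hY : Smp Y) (bY : Big Y) (qY : QF (n + 1) Y) (d : Dsc Y (mx s))
    (oE : On (n + 1) Y E) (o : Ov s R E) (p : res E (mx s) ∈ Prn E.κ) (dZ : Dsc Y Z) (z1 : Z E = 1)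
    (z0 : ∀ P, On (n + 1) Y P → Ov s R P → P ≠ E → On (n + 1) (mx s) P ∧ Z P = 0)
    (dΓ : Dsc (mx s) Γ) (bd : Bdy (n + 1) (mx s) Γ) {Q : Pl E.κ} (q : On n (res E Y) Q)
    (l : 0 < ld (n + 1) (adj (n + 1) E (Γ + ld (n + 2) Γ E • Z)) Q) : ∃ r : ℕ, 0 < r ∧
      r * ld (n + 1) (adj (n + 1) E (Γ + ld (n + 2) Γ E • Z)) Q ≤ 1 ∧
      ∀ β, Dsc (mx s) β → (∀ P, On (n + 1) (mx s) P → Ov s R P → ∃ z : ℤ, β P = z) →
        ∃ z : ℤ, r * rE E Z β Q = z := by
  classical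
  have ib := Api.mod.isb _ K hK
  obtain ⟨κ, hκ⟩ := Pr.exists_hull res' hK hY bY qY ib.2.1
  obtain ⟨h, -, hh⟩ := qY E oE
  have k := hκ.add hh
  have d' := (d.trans dΓ).add (dZ.smul (ld (n + 2) Γ E))
  have e0 : (Γ + ld (n + 2) Γ E • Z - (κ + h)) E = 0 := by
    rw [Pi.sub_apply, k.2 E oE]
    simp only [ld, dsc, Pi.add_apply, Pi.sub_apply, Pi.smul_apply, z1, E.δ_self, smul_eq_mul]
    ring
  have nn := res_pos hK o p (d'.sub k.1).car e0 (fun P u => sub_nonneg.2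
    (le_ov hK bY d k.1 d' (fun P a b => by
      by_cases e : P = E
      · exact (sub_eq_zero.1 (e ▸ e0)).ge
      · have := bd P (z0 P a b e).1
        rw [k.2 P a]
        simpa [(z0 P a b e).2, Pl.δ_ne e, dsc] using this) u)) Q
  have ad := congrFun (a4 _ K hK E _ k.1.car _ (d'.sub k.1).car).1 Q
  rw [add_sub_cancel, Pi.add_apply] at ad
  have le : ld (n + 1) (adj (n + 1) E (Γ + ld (n + 2) Γ E • Z)) Q ≤
      dsc (n + 1) (adj (n + 1) E (κ + h)) Q + 1 := by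
    simp only [ld, dsc, Pi.sub_apply, Pi.zero_apply] at nn ad ⊢
    linarith
  obtain ⟨r, r0, r1, r2⟩ := a6 n K hK Y E hY bY oE _ k Q q (neg_lt_iff_pos_add.2 (l.trans_le le))
  have r3 : (0 : ℝ) < r := Nat.cast_pos.2 r0
  refine ⟨r, r0, ?_, fun β b i => ?_⟩
  · rw [r1] at le
    rw [← le_div_iff₀' r3]
    linarith
  have db := (d.trans b).sub (dZ.smul (β E))
  obtain ⟨γ, hγ⟩ := Gs.exists_hull Api.neg hK (Z := fun P => if Ov s R P then (β - β E • Z) P else 0)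
    hY qY ((Pr.fin_on res' hK hY bY (ib.1 _ db.car)).subset fun P x => ⟨x.1, fun y => x.2 (by
      simp only [y, ite_self])⟩)
  have v : ∀ P, On (n + 1) Y P → Ov s R P → γ P = (β - β E • Z) P := fun P a u =>
    (hγ.2 P a).trans (if_pos u)
  have w : ∀ {a b : BD K}, Dsc Y a → Dsc Y b → (∀ P, On (n + 1) Y P → Ov s R P → a P = b P) →
      res E a ≤ res E b := fun {a b} x y e => by
    have := res_pos hK o p (y.sub x).car (sub_eq_zero.2 (e E oE o).symm) fun P u =>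
      sub_nonneg.2 (le_ov hK bY d x y (fun P a u => (e P a u).le) u)
    rwa [res_sub hK E y.car x.car, sub_nonneg] at this
  obtain ⟨z, hz⟩ := (r2 γ hγ.1 fun P a => by
    by_cases u : Ov s R P
    · rw [v P a u]
      by_cases e : P = E
      · exact ⟨0, by simp [e, z1]⟩
      · simpa [(z0 P a u e).2] using i P (z0 P a u e).1 u
    · exact ⟨0, ((hγ.2 P a).trans (if_neg u)).trans Int.cast_zero.symm⟩).1
  refine ⟨z, ?_⟩
  rw [rE, ← le_antisymm (w hγ.1 db v) (w db hγ.1 fun P a u => (v P a u).symm), hz,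
    mul_div_cancel₀ _ r3.ne']

end Da

open Da

theorem data' : DATA := fun K _ _ n q N Γ s R g E h lp => by
  classical
  have hK := h.ff
  have s0 := smp_mx s
  have b0 := h.rel.pr.big
  have N0 : (0 : ℝ) < N := Nat.cast_pos.2 h.N0
  have sr : ∀ P : Pl K, Smp (res P (mx s)) := fun P => Ae.res_smp res' hK s0
  have c0 : cd (mx s) E = 0 := Nat.le_zero.1 ((On.cle_cd hK s0 lp.pt).1.trans_eq
    ((prn_iff_dim (Gm.ff_κ R hK) (sr R)).1 h.cl))
  have pE := (prn_iff_dim (Gm.ff_κ E hK) (sr E)).2 c0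
  have nc : ∀ P, On (n + 1) (mx s) P → ¬ CLe (mx s) P E := fun P o c => by
    have := (On.cle_cd hK s0 c).1
    rw [c0, (fld'.cen _ K hK _ P P s0).1.1 o] at this
    omega
  have lv : ∀ P, ld (n + 2) (lam N g) P = cn K (n + 2) P + 1 - P.ord g / N := fun P => by
    simp only [ld, dsc, lam, Pi.sub_apply, Pi.smul_apply, smul_eq_mul, dv_apply]
    ring
  obtain ⟨Θ, cΘ, hΘ⟩ := exists_th hK s0 b0
  obtain ⟨Y, s₁, fY, qY, des, -, ov, ud⟩ := Lr.exl2 (u := ∅) (c := 0) (Ω := lam N g) (S := E)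
    (R₀ := R) hK h.rel.ft (by simp) (by simp) cΘ (.of_prn (by
      simpa [lam] using Submodule.smul_mem _ _ (dv_mem_Prn g)))
    (fun P u => by
      rw [lv, sub_nonneg, div_le_iff₀' N0]
      exact h.lcc.2 P u)
    (fun P u o => by
      have a : cn K (n + 2) P - Γ P ≤ 0 := h.rel.pr.bdy P o
      have := (le_div_iff₀' N0).2 (h.lcc.1.2 P u)
      rw [lv]
      linarith) (by rw [lp.lc]; norm_num) lp.ov
  have oE := (ud E lp.ov).1 (.inr rfl)
  obtain ⟨H, qH, hH⟩ := qY E oE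
  have b1 := des.big b0
  have s1 := smp_mx s₁
  obtain ⟨ε, ε0, ef⟩ := b1.exists_eff hH.1.car
  obtain ⟨L, D, c, f1, f2, f3, f4, f5, f6⟩ := ftm0 _ K hK Y (-H) s₁ ε⁻¹ fY qY hH.1.neg qH.neg (by
    have := (ef.smul (inv_pos.2 ε0).le).psef
    rwa [smul_sub, inv_smul_smul₀ ε0.ne', sub_eq_neg_add] at this)
  have H0 : 0 ≤ H := Pr.hart res' hK fY.smp fY.big hH.1 fun P p => hH.2 P p ▸ E.δ_nonneg P
  have ge : ∀ P, H P ≤ -D P := fun P => by
    have := (f6 c le_rfl).1.nn P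
    simp only [Pi.sub_apply, Pi.neg_apply, Pi.zero_apply] at this
    linarith
  have H1 : H E = 1 := (hH.2 E oE).trans E.δ_self
  have le : ∀ G, Dsc (mx s) G → (∀ P, Ov s R P → 0 ≤ G P) → ∀ P, Ov s R P →
      G E * -D P ≤ G P := fun G dG nn P u => by
    obtain e | e := (nn E lp.ov).eq_or_lt
    · rw [← e, zero_mul]; exact nn P u
    have d1 := (des.trans dG).smul (G E)⁻¹
    obtain ⟨W, hW, w⟩ := hart_U hK fY.big (wt_dsc (R₀ := R) fY.des) hH.1 (fY.des.trans d1)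
      fun Q a b => by
        rw [hH.2 Q a, Pi.smul_apply, smul_eq_mul]
        by_cases x : Q = E
        · rw [x, E.δ_self, inv_mul_cancel₀ e.ne']
        · rw [Pl.δ_ne x]
          exact mul_nonneg (inv_pos.2 e).le (nn Q ((ov Q).1 ((ov_iff hK).2 b)))
    obtain ⟨c₀, -, k⟩ := (d1.add (wt_dsc (.refl s1) W hW).2).neg.exists_add
    obtain ⟨V, r, v⟩ := (k _ (le_max_left c₀ c)).exists_rep (finite_singleton P)
    have := (f6 _ (le_max_right c₀ c)).1.fix ((G E)⁻¹ • G + W - H + V) ⟨add_nonneg (sub_nonneg.2 w) r.1,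
      by convert r.2 using 1; abel⟩ P
    simp only [Pi.sub_apply, Pi.add_apply, Pi.neg_apply, Pi.smul_apply, smul_eq_mul, v P rfl,
      Ov.zr ((ov P).2 u) W hW] at this
    rw [← le_inv_mul_iff₀ e]
    linarith
  have D1 : D E = -1 := by
    obtain ⟨G, r, p⟩ := On.rep_of_not_hor s0.eff (P := E) fun x =>
      (P297Z.Pl.ord_nonneg_of_mem _ (x E.t⁻¹ (b0.fld_eq ▸ trivial))).not_gt (by simp [E.ord_t])
    have := le G ((Dsc.refl s0).congr r.2) (fun P _ => r.1 P) E lp.ov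
    nlinarith [ge E]
  have D0 : ∀ P, Ov s R P → On (n + 1) (mx s) P → D P = 0 := fun P u o => by
    obtain ⟨G, r, p, z⟩ := not_cle (nc P o)
    have := le G ((Dsc.refl s0).congr r.2) (fun P _ => r.1 P) P u
    have h0 : 0 ≤ H P := H0 P
    nlinarith [ge P]
  have oL : On (n + 1) L E := (f5 E).2 ⟨oE, by rw [D1, Pi.neg_apply, H1]⟩
  have on : ∀ P, On (n + 1) L P → Ov s R P → P ≠ E → On (n + 1) (mx s) P := fun P a u e =>
    ((ud P u).2 ((f5 P).1 a).1).elim (·.resolve_right e) (hΘ P)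
  obtain ⟨e, he⟩ := exists_nat_ge c
  obtain ⟨zd, dM⟩ := f6 e he
  have sM : Smp (D + (e : ℝ) • mx s₁) := dM.smp
  obtain ⟨f, f0, hf⟩ := wt_gen s₁ R
  obtain ⟨Z, hZ⟩ : ∃ Z, Z = -(D + (e : ℝ) • (dv f + mx s₁)) := ⟨_, rfl⟩
  have zD : ∀ P, Ov s R P → Z P = -D P := fun P u => by
    rw [hZ, Pi.neg_apply, Pi.add_apply, Pi.smul_apply, Ov.zr ((ov P).2 u) _ hf, smul_zero, add_zero]
  have pZ : -Z - (D + (e : ℝ) • mx s₁) ∈ Prn K := by
    convert Submodule.smul_mem _ (e : ℝ) (dv_mem_Prn f) using 1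
    rw [hZ]
    module
  have sZ := sM.congr pZ
  have qZ : CarQ Z := hZ ▸ (f4.add (((carQ_dv f).add (carQ_mx s₁)).qsmul e)).neg
  obtain ⟨σ, A, σ0, -, hA⟩ := sZ.exists_nsmul qZ.neg.rat
  have vA : ∀ P, -mx A P = σ * Z P := fun P => by simp [← hA]
  have Z1 : Z E = 1 := by rw [zD E lp.ov, D1, neg_neg]
  have nn : ∀ P, Ov s R P → 0 ≤ Z P := fun P u => by
    rw [zD P u]; exact (H0 P).trans (ge P)
  have le' : ∀ G, Dsc (mx s) G → (∀ P, Ov s R P → 0 ≤ G P) → ∀ P, Ov s R P →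
      G E * Z P ≤ G P := fun G a b P u => zD P u ▸ le G a b P u
  have dL : Dsc L (-Z) := (f3.1.add (f1.des.smul e)).congr pZ
  have bZ : Big (-Z) := (dM.big b1).congr pZ
  have oZ : On (n + 1) (-Z) E := by_contra fun x => by
    have := le_ov hK bZ ((dM.congr_left pZ).trans des) (Dsc.refl sZ).neg (.zero sZ)
      (fun P a u => by
        rw [neg_neg, zD P u, D0 P u (on P (Pr.on_mono res' hK sZ f1.smp dL a) u
          fun y => x (y ▸ a)), neg_zero, Pi.zero_apply]) lp.ov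
    rw [neg_neg, Z1] at this
    exact absurd this (by norm_num)
  have eD : rE E Z (dv E.t) = res E (-Z) := by
    rw [rE, dv_apply, E.ord_t, Int.cast_one, one_smul, sub_eq_add_neg,
      res_add hK E (dv_mem_Car _) sZ.car, res_dv_t hK, zero_add]
  have rZ := Ae.res_smp res' hK (P := E) sZ
  exact ⟨Z, { h, lp with
    hl := ⟨σ, A, ⟨σ0, by rw [← neg_neg (mx A E), vA, Z1, mul_one],
      fun P u => neg_nonneg.1 (vA P ▸ mul_nonneg σ.cast_nonneg (nn P u)), fun G a b P u => by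
        rw [vA, mul_left_comm]
        exact mul_le_mul_of_nonneg_left (le' G a b P u) σ.cast_nonneg⟩, fun P _ => (vA P).symm⟩
    one := Z1
    nef := ⟨0, by simpa using sZ.nef⟩
    rat := qZ
    nn := nn
    le := le'
    prn := fun G d => prn_of (Gm.ff_κ E hK) pE (res'.des _ K hK _ _ E d)
    pos := fun β c e z => res_pos hK lp.ov pE c e z
    smp := eD ▸ rZ
    big := eD ▸ (res'.on _ K hK _ E sZ).1 oZ
    idx := fun Q o l => idx hK f1.smp f1.big f2 (f1.des.trans des) oL lp.ov pE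
      (by simpa using dL.neg) Z1 (fun P a u x => ⟨on P a u x, by
        rw [zD P u, D0 P u (on P a u x), neg_zero]⟩) h.rel.pr.des h.rel.pr.bdy
      (Pr.on_mono res' (Gm.ff_κ E hK) rZ (Ae.res_smp res' hK f1.smp) (res'.des _ K hK _ _ E dL)
        (eD ▸ o)) l }⟩

end Vale.Agent.P283B.Sp
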