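import Vale.Agent.P283B.SP.UpSt
import Vale.Agent.P283B.LL.PigA
import Vale.Agent.P283B.LC.Loc
import Vale.Agent.P283B.VOL.Ri

/-!
# P283B, block SP: the central place (row SG2)
-/

open Set

noncomputable section

namespace Vale.Agent.P283B.Sp

open P287D Mk

variable {K : Type} [Field K] [Algebra ℂ K] {n q N : ℕ} {Γ Z D : BD K} {s : Finset K}
  {R₀ E : Pl K} {g : K}

theorem ind_of {y : Fin n → K} (hK : FF K n) (hy : AlgebraicIndependent ℂ y)
    (z : Vo.al y E = 0) : Lz.Ind E y := fun p m hm =>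
  ⟨fun e => by simp [algebraicIndependent_iff.1 hy p e] at hm, by
    have := Vo.ri' hK hy E le_rfl hm
    rw [z, mul_zero, add_zero] at this
    rw [Finsupp.sum_fintype _ _ (by simp)]
    simp only [mul_comm (m _ : ℤ)]
    exact_mod_cast this⟩

theorem ld_lam (P : Pl K) : ld n (lam N g) P + psi N g Γ P = ld n Γ P := by
  simp only [ld, dsc, psi, Pi.sub_apply]
  ring

theorem Gr.dl (_ : Gr n q N Γ s R₀ g) : Dsc (mx s) (lam N g) := (Dsc.dv (smp_mx s) g).smul _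

theorem Gr.dp (h : Gr n q N Γ s R₀ g) : Dsc (mx s) (psi N g Γ) := h.dl.sub h.rel.pr.des

theorem Gr.p0 (h : Gr n q N Γ s R₀ g) (P : Pl K) (u : Ov s R₀ P) : 0 ≤ psi N g Γ P := by
  have := h.lcc.1.2 P u
  simp only [psi, lam, Pi.sub_apply, Pi.smul_apply, smul_eq_mul, dv_apply]
  rwa [sub_nonneg, le_inv_mul_iff₀ (by exact_mod_cast h.N0)]

theorem Gr.l0 (h : Gr n q N Γ s R₀ g) (P : Pl K) (u : Ov s R₀ P) :
    0 ≤ ld (n + 2) (lam N g) P := by
  have := h.lcc.2 P u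
  simp only [ld, dsc, lam, Pi.sub_apply, Pi.smul_apply, smul_eq_mul, dv_apply]
  linarith [(inv_mul_le_iff₀ (by exact_mod_cast h.N0)).2 this]

theorem At.ea (h : At n q N Γ s R₀ g E Z) : psi N g Γ E = ld (n + 2) Γ E := by
  rw [← ld_lam (N := N) (g := g), h.lc, zero_add]

theorem At.fol (h : At n q N Γ s R₀ g E Z) (Q : Pl E.κ) {T : Set (BD K)} (hT : T.Finite)
    (c : T ⊆ Car K) : ∃ R, Ov s R₀ R ∧ R ≠ E ∧
      ld (n + 1) (adj (n + 1) E (lam N g)) Q = ld (n + 2) (lam N g) R ∧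
      ∀ β ∈ T, rE E Z β Q = β R - β E * Z R := by
  obtain ⟨R, ⟨a, b⟩, -, d, -, e⟩ := a2 _ K h.ff E Q (insert Z (insert (lam N g) T)) (mx s) 0
    ((hT.insert _).insert _) (insert_subset h.rat.car (insert_subset h.dl.car c)) (mx_mem_Car s)
  have e := e _ (.inr (.inl rfl))
  rw [show dsc (n + 1 + 1) (lam N g) E + 1 = 0 from h.lc, zero_mul, add_zero] at e
  refine ⟨R, Lh.ov_of_cle h.ff h.cl (d.trans h.pt), a, by rw [ld, ld, e], fun β m => ?_⟩
  rw [rE, res_sub_smul h.ff E (c m) h.rat.car, b β (.inr (.inr m)), b Z (.inl rfl), h.one,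
    Pi.sub_apply, Pi.smul_apply, smul_eq_mul]
  ring

theorem At.nn' (h : At n q N Γ s R₀ g E Z) (d : Dsc (mx s) D) (p : ∀ P, Ov s R₀ P → 0 ≤ D P) :
    0 ≤ rE E Z D := fun Q => by
  obtain ⟨R, a, -, -, e⟩ := h.fol Q (finite_singleton D) (singleton_subset_iff.2 d.car)
  rw [e D rfl]
  exact sub_nonneg.2 (h.le D d p R a)

theorem At.oz (h : At n q N Γ s R₀ g E Z) {f : K} (m : f ∈ Oz s R₀) (P : Pl K) (u : Ov s R₀ P) :
    E.ord f * Z P ≤ P.ord f := h.le (dv f) (.dv (smp_mx s) f)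
  (fun Q v => Int.cast_nonneg (P297Z.Pl.ord_nonneg_of_mem _ (m Q v))) P u

/-- a function of bounded size which sees `D` at all places of the residue field -/
theorem At.key (ug : UGG) (h : At n q N Γ s R₀ g E Z) {b : Finset K} {y : Fin (n + 2) → K} {m : ℝ}
    (b0 : ∀ f ∈ b, f ≠ 0 ∧ f ∈ Oz s R₀) (m0 : 0 ≤ m) (bm : ∀ f ∈ b, (E.ord f : ℝ) ≤ m)
    (i : Lz.Ind E y) (r : ∀ i, ∃ f ∈ b, ∃ g ∈ b, y i = f / g) (d : Dsc (mx s) D)
    (p : ∀ P, Ov s R₀ P → 0 ≤ D P) : ∃ f ∈ Oz s R₀, f ≠ 0 ∧ E.ord f ≤ D E + (n + 3) * m ∧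
      ∀ Q, ld (n + 1) (adj (n + 1) E (lam N g)) Q = 0 →
        rE E Z D Q < rE E Z (dv f) Q + rE E Z (psi N g Γ) Q := by
  have pr := h.rel.pr
  obtain ⟨c, -, k⟩ := (pr.des.add d).neg.exists_add
  obtain ⟨G, a, -, x, x1, x2⟩ := Lcb.wt_large (zero_mem (Lcb.Wt (mx s) R₀)) (c + 1)
  have k := k (x - 1) (by linarith)
  have e : -(Γ + D - G) - (mx s + (-(Γ + D) + (x - 1) • mx s)) = G - x • mx s := by module
  obtain ⟨f, f0, hf⟩ := ug (n + 1) K h.ff (Γ + D - G) b E y ((pr.smp.add k).congr (e ▸ x2))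
    ((pr.big.add_smp k).congr (e ▸ x2)) (fun f m => (b0 f m).1) i r
  have l : ∀ P, Ov s R₀ P → ld (n + 1 + 1) (Γ + D - G) P = ld (n + 2) Γ P - D P := fun P u => by
    simp only [ld, dsc, Pi.sub_apply, Pi.add_apply, Lcb.Ov.zr u G a]
    ring
  rw [l E h.ov] at hf
  refine ⟨f, fun P u => (P297Z.Pl.ord_nonneg_iff _ f0).1 (Int.cast_nonneg_iff.1
    (Lcb.le_ov h.ff pr.big (.refl pr.smp) (.zero pr.smp) (.dv pr.smp f) (fun P o u => ?_) u)),
    f0, ?_, fun Q z => ?_⟩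
  · have := hf P 0 0 (fun _ => zero_ne_one) le_rfl le_rfl fun x v => by
      simpa using P297Z.Pl.ord_nonneg_of_mem _ ((b0 x v).2 P u)
    have l1 : ld (n + 2) Γ P ≤ 1 := by rw [ld]; linarith [pr.bdy P o]
    rw [l P u] at this
    have : ((-1 : ℤ) : ℝ) < P.ord f := by push_cast at this ⊢; linarith [p P u]
    exact Int.cast_nonneg (Int.lt_add_one_iff.1 (by linarith [Int.cast_lt.1 this]))
  · have := hf E 2 m (fun _ => by norm_num) zero_le_two m0 fun x v => by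
      push_cast
      linarith [bm x v]
    rw [l E h.ov] at this
    push_cast at this
    linarith [h.klt E h.ov]
  · obtain ⟨R, u, ne, e1, e2⟩ := h.fol Q (toFinite {D, dv f, psi N g Γ})
      (insert_subset d.car (insert_subset (dv_mem_Car f) (singleton_subset_iff.2 h.dp.car)))
    obtain ⟨w, hw⟩ := h.rat.rat R
    have := hf R w 0 (fun v => (ne v).elim) (Rat.cast_nonneg.1 (hw ▸ h.nn R u)) le_rfl
      fun x v => by simpa [← hw] using h.oz (b0 x v).2 R u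
    rw [l R u, ← hw, ← h.ea, ← ld_lam (N := N) (g := g) R, ← e1, z] at this
    rw [e2 _ (.inl rfl), e2 _ (.inr (.inl rfl)), e2 _ (.inr (.inr rfl)), dv_apply, dv_apply]
    linarith

theorem sg2 : SG2 := fun ug jm fr li n q N => by
  obtain ⟨C, C0, jm⟩ := jm (n + 1)
  refine ⟨(1 + 2 * C) * (2 + q * N), fun K _ _ Γ s R₀ g gr lp => ?_⟩
  have gm : Lj.Gm (n + 1) (lam N g) (psi N g Γ) s R₀ := ⟨gr.rel.pr.big, gr.cl, gr.dl.car, gr.dp.car,
    gr.l0, lp, fun P u z => by linarith [gr.klt P u, ld_lam (n := n + 2) (N := N) (g := g) (Γ := Γ) P]⟩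
  obtain ⟨b, r, b0, fr⟩ := fr (n + 1) K gr.ff _ _ s R₀ gm
  obtain ⟨c, hc⟩ : ∃ c : ℝ, c = (n + 3) * |r| + 1 := ⟨_, rfl⟩
  have c0 : 0 < c := by rw [hc]; positivity
  have c1 : 1 ≤ c := by rw [hc]; exact le_add_of_nonneg_left (by positivity)
  obtain ⟨E, sg, jm⟩ := jm K gr.ff _ _ s R₀ (2 * c) gm
  obtain ⟨f1, y, y1, y2, y3⟩ := fr E sg
  refine ⟨E, ⟨sg.1, sg.2.1, sg.2.2⟩, fun Z h => ?_⟩
  have a0 : 0 < psi N g Γ E := h.ea ▸ h.klt E h.ov
  have nn := h.nn' h.dp h.p0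
  have key : ∀ D, Dsc (mx s) D → (∀ P, Ov s R₀ P → 0 ≤ D P) → D E ≤ c * psi N g Γ E → ∀ Q,
      ld (n + 1) (adj (n + 1) E (lam N g)) Q = 0 →
      rE E Z D Q < c * (1 + 2 * C) * rE E Z (psi N g Γ) Q := fun D d p e Q z => by
    obtain ⟨f, m, f0, k1, k2⟩ := h.key ug b0 (mul_nonneg (abs_nonneg r) a0.le) (fun f m =>
      (f1 f m).trans (mul_le_mul_of_nonneg_right (le_abs_self r) a0.le)) (ind_of h.ff y1 y2) y3 d p
    have k3 : (E.ord f : ℝ) ≤ 2 * c * psi N g Γ E := by nlinarith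
    have k4 : psi N g Γ E * rE E Z (dv f) Q ≤ _ := jm Z h.rat.car h.one
      (fun f m _ => h.oz m) Q z f m f0 k3
    have p0 : 0 ≤ rE E Z (psi N g Γ) Q := nn Q
    have k5 : rE E Z (dv f) Q ≤ C * (2 * c) * rE E Z (psi N g Γ) Q :=
      le_of_mul_le_mul_left (k4.trans ((mul_le_mul_of_nonneg_right
        (mul_le_mul_of_nonneg_left k3 C0.le) p0).trans_eq (by rw [rE]; ring))) a0
    nlinarith [k2 Q z]
  have pos : ∀ Q, ld (n + 1) (adj (n + 1) E (lam N g)) Q = 0 → 0 < rE E Z (psi N g Γ) Q :=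
    fun Q z => (mul_pos_iff_of_pos_left (by positivity)).1
      ((h.nn' (.zero (smp_mx s)) (fun _ _ => le_rfl) Q).trans_lt
        (key 0 (.zero (smp_mx s)) (fun _ _ => le_rfl) (mul_pos c0 a0).le Q z))
  have ql : CarQ (lam N g) := by simpa [lam] using (carQ_dv g).qsmul (N : ℚ)⁻¹
  have qp : CarQ (psi N g Γ) := ql.sub h.rel.pr.rat
  obtain ⟨x, hx⟩ := qp.rat E
  have qb : CarQ (psi N g Γ - psi N g Γ E • Z) := hx ▸ qp.sub (h.rat.qsmul x)
  refine fun Q z => ⟨pos Q z, fun G r => ?_⟩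
  have p1 := pos Q z
  have := On.rep_ind (Gm.ff_κ E h.ff) (res_carQ h.ff E qb) (p := fun a G =>
    G Q ≤ a * ((1 + 2 * C) * (2 + q * N) * rE E Z (psi N g Γ) Q)) (by simp)
    (fun a G b G' x y => by rw [Pi.add_apply, add_mul]; exact add_le_add x y)
    (fun a G c c0 x => by rw [mul_assoc]; exact mul_le_mul_of_nonneg_left x c0)
    (fun m w w0 hw => ?_) r
  · simpa using this
  have s0 : 0 ≤ dv w + (m : ℝ) • rE E Z (psi N g Γ) := hw.resolve_left w0
  rcases m.eq_zero_or_pos with rfl | m0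
  · simp only [Nat.cast_zero, zero_smul, add_zero, zero_mul] at s0 ⊢
    rw [Fs.dv_zero_of_nonneg (Gm.ff_κ E h.ff) s0, Pi.zero_apply]
  have m1 : (1 : ℝ) ≤ m := Nat.one_le_cast.2 m0
  obtain ⟨f, f2, f0, f3, f4⟩ := li n q N K Γ s R₀ g E Z h (m + 1) 0 w w0 (by positivity)
    (by simpa using mul_nonneg (by positivity) (h.klt E h.ov).le) fun Q' => by
      obtain ⟨R, u, -, e, -⟩ := h.fol Q' finite_empty (empty_subset _)
      have l0 := e ▸ h.l0 R u
      have := s0 Q'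
      have p0 : 0 ≤ rE E Z (psi N g Γ) Q' := nn Q'
      simp only [Pi.add_apply, Pi.smul_apply, smul_eq_mul, Pi.zero_apply, Int.cast_zero, zero_mul,
        add_zero] at this ⊢
      rcases l0.eq_or_lt with v | v
      · linarith [pos Q' v.symm]
      · linarith
  obtain ⟨l, hl⟩ : ∃ l : ℝ, l = m + 1 + q * N := ⟨_, rfl⟩
  have l0 : 0 < l := by rw [hl]; positivity
  rw [← hl] at f2
  have d : Dsc (mx s) (dv f + l • psi N g Γ) := (Dsc.dv (smp_mx s) f).add (h.dp.smul l)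
  have k := key _ (d.smul (c / l)) (fun P u => mul_nonneg (by positivity)
    ((Lz.mem_Sl.1 f2 P u).resolve_left f0)) (le_of_eq (by
      simp only [Pi.add_apply, Pi.smul_apply, smul_eq_mul, dv_apply, f3]
      field_simp
      simp)) Q z
  have e : rE E Z ((c / l) • (dv f + l • psi N g Γ)) =
      (c / l) • (dv w + l • rE E Z (psi N g Γ)) := by
    rw [rE, rE, show (c / l) • (dv f + l • psi N g Γ) - ((c / l) • (dv f + l • psi N g Γ)) E • Z =
      (c / l) • (dv f + l • (psi N g Γ - psi N g Γ E • Z)) by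
        simp only [Pi.add_apply, Pi.smul_apply, smul_eq_mul, dv_apply, f3]
        module,
      res_smul h.ff E _ (add_mem (dv_mem_Car f) (Submodule.smul_mem _ _ qb.car)),
      res_add_smul h.ff E (dv_mem_Car f) qb.car, res_dv_unit h.ff E f0 f3, ← f4, zpow_zero, div_one]
  rw [e, Pi.smul_apply, smul_eq_mul, div_mul_eq_mul_div, div_lt_iff₀ l0, mul_assoc, mul_assoc,
    mul_lt_mul_iff_right₀ c0] at k
  change (dv w + (m : ℝ) • rE E Z (psi N g Γ)) Q ≤ _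
  simp only [Pi.add_apply, Pi.smul_apply, smul_eq_mul] at k ⊢
  have l1 : l ≤ m * (2 + q * N) := by
    rw [hl]
    nlinarith [mul_nonneg (sub_nonneg.2 m1) (by positivity : (0 : ℝ) ≤ q * N)]
  have l2 : (m : ℝ) ≤ l := by rw [hl, add_assoc]; exact le_add_of_nonneg_right (by positivity)
  nlinarith [mul_le_mul_of_nonneg_left l1 (by positivity : 0 ≤ (1 + 2 * C) * rE E Z (psi N g Γ) Q),
    mul_le_mul_of_nonneg_right l2 p1.le]

end Vale.Agent.P283B.Sp
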