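import Vale.Agent.P283B.SP.St
import Vale.Agent.P283B.LC.Loc

/-!
# P283B, block SP: centrality on the germ
-/

open Set

noncomputable section

namespace Vale.Agent.P283B.Sp

open P287D Lcb

variable {K : Type} [Field K] [Algebra ℂ K] {n m b q N : ℕ} {C a : ℝ}

theorem Ko.pre4 {L p D : BD K} (h : Ko n m b C a L p D) : Pre n m b C L p 0 := by
  have e := ((AmpOn.refl h.smp).smul h.a0).congr h.lin
  refine ⟨h.ff, h.m0, h.b2, h.prn, h.int, by simpa using e.smp, by simpa using e.big_iff.1 h.big,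
    .zero, by simpa using Dsc.zero e.smp, h.rp, by simpa using carQ_dv (1 : K), h.nn, le_rfl,
    fun w o => ?_, fun _ _ => .inl rfl, by simpa using h.cen⟩
  obtain ⟨r, r0, -, r1, r2⟩ := h.idx w ((Pr.on_iff res' h.ff h.smp e).2 (by simpa using o))
  exact ⟨r, r0, r1, r2⟩

variable {Γ Z D : BD K} {s₀ : Finset K} {R₀ E : Pl K} {g : K}

theorem At.psi_E4 (h : At n q N Γ s₀ R₀ g E Z) : psi N g Γ E = ld (n + 2) Γ E := by
  have := h.lc
  simp only [psi, ld, dsc, Pi.sub_apply] at this ⊢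
  linarith

theorem At.rE_lin4 (h : At n q N Γ s₀ R₀ g E Z) (d : Dsc (mx s₀) D) :
    rE E Z D - D E • rE E Z (dv E.t) ∈ Prn E.κ := by
  have c := h.rat.car
  rw [rE, rE, res_sub_smul h.ff E d.car c, res_sub_smul h.ff E (dv_mem_Car _) c, res_dv_t h.ff E,
    dv_apply, E.ord_t]
  convert h.prn D d using 1
  module

theorem sg4 : SG4 := fun ko als n q N C => by
  obtain ⟨t, t0, H⟩ := als n N (2 * q * N) C
  obtain ⟨x, x0, x1, x2⟩ : ∃ x : ℝ, 0 < x ∧ x < t ∧ x ≤ 1 :=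
    ⟨min (t / 2) 1, lt_min (half_pos t0) one_pos, (min_le_left _ _).trans_lt (half_lt_self t0),
      min_le_right _ _⟩
  have x3 : 1 ≤ x⁻¹ := (one_le_inv₀ x0).2 x2
  refine ⟨x⁻¹, x3, fun K _ _ Γ s₀ R₀ g E Z h dc D d nn R o => ?_⟩
  have k := ko n q N C K Γ s₀ R₀ g E Z h dc
  have hK := h.ff
  have hb := h.rel.pr.big
  have sm := smp_mx s₀
  have a0 := k.a0
  rcases (nn E h.ov).eq_or_lt with z | z
  · obtain ⟨G, g1, g2⟩ := hart_U hK hb (wt_dsc (R₀ := R₀) (.refl sm)) (.zero sm) d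
      fun P _ y => nn P ((ov_iff hK).2 y)
    have : ¬ 0 < (D + G) R := fun y => by
      have := CLe.pos (CLe.trans h.pt o) (d.add (wt_dsc (.refl sm) G g1).2) g2 y
      rw [Pi.add_apply, ← z, Ov.zr h.ov G g1, add_zero] at this
      exact lt_irrefl _ this
    rw [Pi.add_apply, Ov.zr o G g1, add_zero] at this
    rw [← z, mul_zero, zero_mul]
    exact mul_nonpos_of_nonpos_of_nonneg (not_lt.1 this) a0.le
  by_cases ne : R = E
  · rw [ne, mul_assoc]
    exact le_mul_of_one_le_left (mul_pos z a0).le x3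
  have cZ := h.rat.car
  have cΓ := h.rel.pr.des.car
  have cD := sub_mem d.car ((Car K).smul_mem (D E) cZ)
  have cl : lam N g ∈ Car K := (Car K).smul_mem _ (dv_mem_Car g)
  have y0 := div_pos a0 z
  have r : Rep (rE E Z (psi N g Γ)) ((ld (n + 2) Γ E / D E) • rE E Z D) :=
    ⟨smul_nonneg y0.le (h.pos _ cD (by simp [h.one]) fun P u => sub_nonneg.2 (h.le D d nn P u)), by
      convert sub_mem ((Prn _).smul_mem (ld (n + 2) Γ E / D E) (h.rE_lin4 d)) k.lin using 1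
      rw [smul_sub, smul_smul, div_mul_cancel₀ _ z.ne']
      abel⟩
  obtain ⟨c₁, n1⟩ := h.rel.nef
  obtain ⟨c₂, n2⟩ := h.nef
  obtain ⟨c₃, -, n3⟩ := d.neg.exists_add
  generalize hy : x * (ld (n + 2) Γ E / D E) = y
  have y1 : 0 < y := hy ▸ mul_pos x0 y0
  have y2 : y * D E = x * ld (n + 2) Γ E := by rw [← hy, mul_assoc, div_mul_cancel₀ _ z.ne']
  have y3 : 0 ≤ ld (n + 2) Γ E - y * D E := by nlinarith
  have v : ∀ P, dsc (n + 2) (Γ + (ld (n + 2) Γ E - y * D E) • Z + y • D) P =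
      dsc (n + 2) Γ P - (ld (n + 2) Γ E - y * D E) * Z P - y * D P := fun P => by
    simp only [dsc, Pi.sub_apply, Pi.add_apply, Pi.smul_apply, smul_eq_mul]
    ring
  have n4 : Nef ((c₁ + (ld (n + 2) Γ E - y * D E) * c₂ + y * c₃) • mx s₀ -
      (Γ + (ld (n + 2) Γ E - y * D E) • Z + y • D)) := by
    convert (n1.add (n2.smul y3)).add ((n3 c₃ le_rfl).nef.smul y1.le) using 1
    module
  have w := inv_U (Γ := Γ + (ld (n + 2) Γ E - y * D E) • Z + y • D)
    (c := c₁ + (ld (n + 2) Γ E - y * D E) * c₂ + y * c₃ + 1) hK hb (.refl sm) h.ov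
    (by rw [v, h.one, ld]; ring) (by
      convert n4.add sm.nef using 1
      module) (by
      convert hb.add_nef n4 using 1
      module) (fun P p u => by
      rw [v]
      linarith [h.rel.pr.bdy P p, mul_nonneg y3 (h.nn P u), mul_nonneg y1.le (nn P u)])
    (fun Q _ => ?_) o ne
  · rw [v] at w
    rw [mul_assoc, le_inv_mul_iff₀ x0, ← mul_assoc, mul_comm x, mul_assoc, ← y2, ld]
    nlinarith [mul_nonneg y3 (h.nn R o)]
  have c1 : psi N g Γ - psi N g Γ E • Z ∈ Car K := sub_mem (sub_mem cl cΓ) ((Car K).smul_mem (psi N g Γ E) cZ)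
  have e : adj (n + 1) E (Γ + (ld (n + 2) Γ E - y * D E) • Z + y • D) = adj (n + 1) E (lam N g) -
      (rE E Z (psi N g Γ) - y • rE E Z D) := by
    rw [rE, rE, ← res_sub_smul hK E c1 cD, ← adj_sub hK cl (sub_mem c1 ((Car K).smul_mem y cD)),
      h.psi_E4, psi]
    congr 1
    module
  have i := H _ _ _ _ k.pre4 r Q
  have j : 0 ≤ (ld (n + 2) Γ E / D E) * rE E Z D Q := r.1 Q
  rw [e, dsc_sub, Pi.sub_apply, Pi.smul_apply, smul_eq_mul, ← hy, mul_assoc]
  rw [Pi.smul_apply, smul_eq_mul, ld.eq_1 (n + 1)] at i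
  rcases j.eq_or_lt with j | j
  · obtain ⟨u, hu⟩ := k.int Q
    have u0 : 0 ≤ ld (n + 1) (adj (n + 1) E (lam N g)) Q :=
      nonneg_of_mul_nonneg_right (hu ▸ u.cast_nonneg) (Nat.cast_pos.2 k.m0)
    have u1 : 0 ≤ rE E Z (psi N g Γ) Q := k.nn Q
    rw [← j]
    rcases u0.eq_or_lt with u0 | u0
    · have := (k.cen Q u0.symm).1
      rw [ld] at u0
      linarith
    · rw [ld] at u0
      linarith
  · linarith [mul_lt_mul_of_pos_right x1 j]

end Vale.Agent.P283B.Sp
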