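import Vale.Agent.P283B.SP.St

/-!
# P283B, block SP: successive minima and the count at finite level (row SG5)
-/

set_option linter.unusedVariables false
set_option linter.unusedSectionVars false

open Set
open Vale.Agent.P297Z

noncomputable section

namespace Vale.Agent.P283B.Sp

open P287D Mk Cb

namespace Gd

variable {K : Type} [Field K] [Algebra ℂ K]

/-- the greedy choice -/
theorem greedy (r : ℕ) (S : Fin r → Set K) (h : ∀ k, ((k.1 + 1 : ℕ) : ℕ∞) ≤ rk (S k)) :
    ∃ y : Fin r → K, AlgebraicIndependent ℂ y ∧ ∀ k, y k ∈ S k := by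
  suffices ∃ y : Fin r → K, Function.Injective y ∧
      (AlgebraicIndependent.matroid ℂ K).Indep (range y) ∧ ∀ k, y k ∈ S k from
    this.imp fun y a => ⟨(algebraicIndependent_subtype_range a.1).1 a.2.1, a.2.2⟩
  induction r with
  | zero => exact ⟨Fin.elim0, fun a => a.elim0, by simp, fun a => a.elim0⟩
  | succ r ih =>
    obtain ⟨y, a, b, c⟩ := ih (fun k => S k.castSucc) fun k => h k.castSucc
    obtain ⟨J, hJ⟩ := (AlgebraicIndependent.matroid ℂ K).exists_isBasis' (S (Fin.last r))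
    obtain ⟨e, ⟨e1, e2⟩, e3⟩ := b.augment hJ.indep (by
      rw [hJ.encard_eq_eRk, ← image_univ, a.injOn.encard_image]
      refine lt_of_lt_of_le ?_ (h (Fin.last r))
      simp [ENat.lt_add_one_iff])
    refine ⟨Fin.snoc y e, Fin.snoc_injective_iff.2 ⟨a, e2⟩, by rwa [Fin.range_snoc], fun k => ?_⟩
    refine Fin.lastCases ?_ (fun k => ?_) k
    · simpa using hJ.subset e1
    · simpa using c k

theorem mo_mul (a b : K) (i j : ℤ) : mo (a * b) (i + j) = mo a i * mo b j := by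
  rw [mo, mo, mo, map_mul, zpow_add₀ RatFunc.X_ne_zero]; ring

theorem mo_pow (a : K) (i : ℤ) (k : ℕ) : mo a i ^ k = mo (a ^ k) (k * i) := by
  rw [mo, mo, mul_pow, map_pow, ← zpow_natCast (_ ^ i), ← zpow_mul, mul_comm i]

theorem mo_prod {ι : Type} (s : Finset ι) (a : ι → K) (j : ι → ℤ) :
    ∏ i ∈ s, mo (a i) (j i) = mo (∏ i ∈ s, a i) (∑ i ∈ s, j i) := by
  classical
  induction s using Finset.induction_on with
  | empty => simp [mo]
  | insert i s hi ih => rw [Finset.prod_insert hi, Finset.prod_insert hi, Finset.sum_insert hi,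
      mo_mul, ih]

theorem zs {ι : Type} {a : K} (h : a ≠ 0) (s : Finset ι) (j : ι → ℤ) :
    a ^ ∑ i ∈ s, j i = ∏ i ∈ s, a ^ j i := by
  classical
  induction s using Finset.induction_on with
  | empty => simp
  | insert i s hi ih => rw [Finset.prod_insert hi, Finset.sum_insert hi, zpow_add₀ h, ih]

theorem unit {E : Pl K} {f : K} (f0 : f ≠ 0) : E.ord (f / E.t ^ E.ord f) = 0 := by
  rw [Pl.ord_div _ f0 (zpow_ne_zero _ E.t_ne), E.ord_t_zpow, sub_self]

open MvPolynomial in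
/-- independent initial forms -/
theorem ind {ι : Type} {E : Pl K} {α : ι → K} (a0 : ∀ i, α i ≠ 0)
    (h : AlgebraicIndependent ℂ fun i => ini E (α i)) : Lz.Ind E α := fun p m hm => by
  classical
  let wt : (ι →₀ ℕ) → ℤ := fun d => d.sum fun i k => k * E.ord (α i)
  obtain ⟨m₀, h0, hmin⟩ := p.support.exists_min_image wt ⟨m, hm⟩
  let k : (ι →₀ ℕ) → ℕ := fun d => (wt d - wt m₀).toNat
  have hk : ∀ d ∈ p.support, (k d : ℤ) + wt m₀ = wt d := fun d x => by
    have := hmin d x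
    simp only [k]
    omega
  let a : ι → K := fun i => α i / E.t ^ E.ord (α i)
  let q : MvPolynomial (Option ι) ℂ :=
    ∑ d ∈ p.support, X none ^ k d * rename some (monomial d (coeff d p))
  have t0 := fun j : ℤ => zpow_ne_zero j E.t_ne
  have e : aeval (fun o : Option ι => o.elim E.t a) q * E.t ^ wt m₀ = aeval α p := by
    conv_rhs => rw [p.as_sum]
    simp only [q, map_sum, map_mul, map_pow, aeval_X, aeval_rename, Finset.sum_mul]
    refine Finset.sum_congr rfl fun d x => ?_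
    rw [aeval_monomial, aeval_monomial, mul_right_comm, Option.elim, ← zpow_natCast,
      ← zpow_add₀ E.t_ne, hk d x, mul_left_comm]
    congr 1
    simp only [wt, Finsupp.sum, Finsupp.prod, Function.comp_apply, Option.elim, a]
    rw [zs E.t_ne, ← Finset.prod_mul_distrib]
    refine Finset.prod_congr rfl fun i _ => ?_
    rw [div_pow, mul_comm (d i : ℤ), zpow_mul, zpow_natCast, mul_div_cancel₀ _ (pow_ne_zero _ (t0 _))]
  have mem : ∀ o : Option ι, o.elim E.t a ∈ E.ring := by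
    rintro (_ | i)
    exacts [t_mem E, mem_ord (unit (a0 i)).ge]
  have r0 : E.rd E.t = 0 := (rd_eq_zero (t_mem E)).2 (mx_iff.2 (.inr (by rw [E.ord_t]; omega)))
  have nz : E.rd (aeval (fun o : Option ι => o.elim E.t a) q) ≠ 0 := fun z => by
    rw [rd_aeval mem] at z
    have := algebraicIndependent_iff.1 h
      (∑ d ∈ p.support, monomial d (0 ^ k d * coeff d p)) (by
        have y : mo (0 : E.κ) (wt m₀) = 0 := by simp [mo]
        rw [← y, ← z]
        simp only [q, map_sum, map_mul, map_pow, aeval_X, aeval_rename, mo, Finset.sum_mul]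
        refine Finset.sum_congr rfl fun d x => ?_
        rw [aeval_monomial, aeval_monomial, Option.elim, r0]
        rcases Nat.eq_zero_or_pos (k d) with u | u
        · have v := hk d x
          rw [u, Nat.cast_zero, zero_add] at v
          simp only [Finsupp.prod, ini, mo_pow, mo_prod]
          rw [u, v, pow_zero, pow_zero, one_mul, one_mul, map_mul, mo, mul_assoc,
            ← IsScalarTower.algebraMap_apply]
          rfl
        · simp [u.ne'])
    have c := congrArg (coeff m₀) this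
    rw [coeff_sum, Finset.sum_eq_single m₀ (fun d _ x => by rw [coeff_monomial, if_neg x])
      (fun x => absurd h0 x), coeff_monomial, if_pos rfl] at c
    simp [k, mem_support_iff.1 h0] at c
  have m1 : aeval (fun o : Option ι => o.elim E.t a) q ∈ E.ring := by
    by_contra z
    exact nz (dif_neg z)
  have := mt (rd_eq_zero m1).2 nz
  rw [mx_iff, not_or] at this
  rw [← e, Pl.ord_mul _ this.1 (t0 _), E.ord_t_zpow]
  exact ⟨mul_ne_zero this.1 (t0 _), by linarith [hmin m hm, not_lt.1 this.2]⟩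

variable {n q N : ℕ} {Γ Z : BD K} {s₀ : Finset K} {R₀ E : Pl K} {g f : K}

theorem psi_nn (h : At n q N Γ s₀ R₀ g E Z) (P : Pl K) (u : Ov s₀ R₀ P) : 0 ≤ psi N g Γ P := by
  have := h.lcc.1.2 P u
  have N0 : (0 : ℝ) < N := Nat.cast_pos.2 h.N0
  simp only [psi, lam, Pi.sub_apply, Pi.smul_apply, smul_eq_mul, dv_apply]
  rwa [sub_nonneg, le_inv_mul_iff₀ N0]

theorem psi_E (h : At n q N Γ s₀ R₀ g E Z) : psi N g Γ E = ld (n + 2) Γ E := by
  have := h.lc
  simp only [psi, ld, dsc, Pi.sub_apply] at this ⊢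
  linarith

/-- initial forms of sections are sections -/
theorem sec (hR : RES) (h : At n q N Γ s₀ R₀ g E Z) {l : ℝ}
    (hf : f ∈ Lz.Sl (Ov s₀ R₀) (psi N g Γ) l) (f0 : f ≠ 0) :
    0 ≤ dv (E.rd (f / E.t ^ E.ord f)) +
      ((E.ord f : ℝ) • rE E Z (dv E.t) + l • rE E Z (psi N g Γ)) := by
  have hK := h.ff
  have d : Dsc (mx s₀) (psi N g Γ) := ((Dsc.dv (smp_mx s₀) g).smul _).sub h.rel.pr.des
  have d' := (Dsc.dv (smp_mx s₀) f).add (d.smul l)
  have nn : ∀ P, Ov s₀ R₀ P → 0 ≤ (dv f + l • psi N g Γ) P := fun P u =>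
    (Lz.mem_Sl.1 hf P u).resolve_left f0
  have cZ := h.rat.car
  have c := fun (β : BD K) (b : β ∈ Car K) (x : ℝ) => sub_mem b ((Car K).smul_mem x cZ)
  have sb : ∀ β ∈ Car K, rE E Z β = res E β - β E • res E Z := fun β b => by
    rw [rE, sub_eq_add_neg, ← neg_smul, hR.add _ K hK E _ b _ ((Car K).smul_mem _ cZ),
      hR.smul _ K hK E _ _ cZ, neg_smul, ← sub_eq_add_neg]
  have p := h.pos _ (c _ d'.car ((dv f + l • psi N g Γ) E)) (by simp [h.one])
    fun P u => sub_nonneg.2 (h.le _ d' nn P u)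
  change 0 ≤ rE E Z _ at p
  rw [sb _ d'.car, hR.add _ K hK E _ (dv_mem_Car f) _ ((Car K).smul_mem _ d.car),
    hR.smul _ K hK E _ _ d.car, hR.pri _ K hK E f f0] at p
  rw [sb _ d.car, sb _ (dv_mem_Car _), hR.pri _ K hK E _ E.t_ne, dv_apply, E.ord_t, zpow_one,
    div_self E.t_ne, show E.rd 1 = 1 by simpa using rd_const (P := E) 1, dv_one]
  convert p using 1
  rw [Pi.add_apply, Pi.smul_apply, dv_apply, smul_eq_mul]
  push_cast
  module

/-- the count -/
theorem cnt (V : Submodule ℂ K) (E : Pl K) (T : Finset ℤ) (W : ℤ → Submodule ℂ E.κ)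
    (fin : ∀ j, Module.Finite ℂ (W j))
    (h : ∀ f ∈ V, f ≠ 0 → E.ord f ∈ T → E.rd (f / E.t ^ E.ord f) ∈ W (E.ord f)) :
    ∃ (r : ℕ) (π : V →ₗ[ℂ] Fin r → ℂ), r = ∑ j ∈ T, Module.finrank ℂ (W j) ∧
      ∀ f, π f = 0 → (f : K) = 0 ∨ E.ord (f : K) ∉ T := by
  have t0 := fun j : ℤ => zpow_ne_zero j E.t_ne
  have m : ∀ (j : ℤ) (f : K), f ∈ E.sub (-j) → f / E.t ^ j ∈ E.ring := fun j f x => by
    rcases eq_or_ne f 0 with rfl | f0
    · simp
    refine mem_ord ?_
    have : (j : ℝ) ≤ E.ord f := by linarith [x.resolve_left f0]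
    rw [Pl.ord_div _ f0 (t0 j), E.ord_t_zpow, sub_nonneg]
    exact_mod_cast this
  have ex : ∀ j : T, ∃ ρ : V →ₗ[ℂ] W j, ∀ f : V, (f : K) ∈ E.sub (-(j : ℤ)) →
      (ρ f : E.κ) = E.rd (f / E.t ^ (j : ℤ)) := fun j => by
    let ρ : (E.sub (-(j : ℤ))).comap V.subtype →ₗ[ℂ] E.κ :=
      { toFun := fun f => E.rd (f.1.1 / E.t ^ (j : ℤ))
        map_add' := fun a b => by
          rw [← rd_add (m _ a.1.1 a.2) (m _ b.1.1 b.2), ← add_div]; rfl
        map_smul' := fun c a => by
          rw [RingHom.id_apply, Algebra.smul_def c (E.rd _), ← rd_const,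
            ← rd_mul (E.con c) (m _ a.1.1 a.2), ← mul_div_assoc, ← Algebra.smul_def]; rfl }
    obtain ⟨σ, hσ⟩ := (ρ.codRestrict (W j) fun f => by
      change E.rd (f.1.1 / E.t ^ (j : ℤ)) ∈ _
      by_cases z : Mx E (f.1.1 / E.t ^ (j : ℤ))
      · rw [(rd_eq_zero z.mem).2 z]; exact zero_mem _
      have f0 : f.1.1 ≠ 0 := fun e => z (by rw [e, zero_div]; exact mx_zero)
      have o := Pl.ord_nonneg_of_mem _ (m _ f.1.1 f.2)
      rw [mx_iff, not_or] at z
      have e : E.ord f.1.1 = j := by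
        have z2 := z.2
        rw [Pl.ord_div _ f0 (t0 j), E.ord_t_zpow] at o z2
        omega
      have := h _ f.1.2 f0 (by rw [e]; exact j.2)
      rwa [e] at this).exists_extend
    exact ⟨σ, fun f x => congrArg Subtype.val (LinearMap.congr_fun hσ ⟨f, x⟩)⟩
  choose ρ hρ using ex
  refine ⟨_, (Module.finBasis ℂ (∀ j : T, W j)).equivFun.toLinearMap.comp (LinearMap.pi ρ),
    by rw [Module.finrank_pi_fintype, Finset.sum_coe_sort T fun j => Module.finrank ℂ (W j)],
    fun f x => or_iff_not_imp_left.2 fun f0 y => ?_⟩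
  have z := congrFun ((Module.finBasis ℂ (∀ j : T, W j)).equivFun.map_eq_zero_iff.1 x) ⟨_, y⟩
  have w := hρ ⟨_, y⟩ f (.inr (by simp))
  rw [show ρ ⟨_, y⟩ f = 0 from z] at w
  have := (rd_eq_zero (mem_ord (unit f0).ge)).1 w.symm
  rw [mx_iff, unit f0] at this
  exact this.elim (div_ne_zero f0 (t0 _)) (lt_irrefl _)

end Gd

open Gd in
/-- **SG5**, from the rows of the library -/
theorem sg5_of (hM : MOD) (hR : RES) : SG5 := fun ko li mk n q N C => by
  obtain ⟨C', c1, mk⟩ := mk n N (2 * q * N) C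
  have c2 : (1 : ℝ) ≤ 2 + q * N := by linarith [show (0 : ℝ) ≤ q * N by positivity]
  have c0 : (0 : ℝ) < 2 + q * N := by positivity
  refine ⟨(2 + q * N) * C', one_le_mul_of_one_le_of_one_le c2 c1,
    fun K _ _ Γ s₀ R₀ g E Z h dc => ?_⟩
  have k := ko n q N C K Γ s₀ R₀ g E Z h dc
  obtain ⟨μ, m1, m2, m3, m4⟩ := mk _ _ _ _ _ k
  obtain ⟨y, y1, y2⟩ := greedy _ _ m3
  choose j u u0 vm e using y2
  have lc : ∀ Q, 0 < ld (n + 1) (adj (n + 1) E (lam N g)) Q + rE E Z (psi N g Γ) Q := fun Q => by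
    obtain ⟨z, x⟩ := k.int Q
    have : 0 ≤ ld (n + 1) (adj (n + 1) E (lam N g)) Q :=
      nonneg_of_mul_nonneg_right (x ▸ Nat.cast_nonneg z) (Nat.cast_pos.2 k.m0)
    rcases this.eq_or_lt with w | w
    · linarith [(k.cen Q w.symm).1]
    · linarith [show 0 ≤ rE E Z (psi N g Γ) Q from k.nn Q]
  choose α a1 a2 a3 a4 using fun i => li n q N K Γ s₀ R₀ g E Z h (μ i + 1) (j i) (u i) (u0 i)
    (by linarith [m2 i]) (by linarith [(abs_le.1 (vm i).1).1, k.a0]) fun Q => by
      have := ((vm i).2.resolve_left (u0 i)) Q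
      simp only [Pi.add_apply, Pi.smul_apply, smul_eq_mul, Pi.zero_apply] at this ⊢
      linarith [lc Q]
  have ψE := psi_E h
  refine ⟨fun i => (2 + q * N) * μ i.rev, fun i => α i.rev,
    fun i => mul_pos c0 (one_pos.trans_le (m2 _)), fun a b x =>
      mul_le_mul_of_nonneg_left (m1 (Fin.rev_le_rev.2 x)) c0.le, fun i => ?_, fun i => ?_,
    ind (fun i => a2 _) ?_, fun M l M1 l1 => ?_⟩
  · refine Lz.mem_Sl.2 fun P x => (Lz.mem_Sl.1 (a1 i.rev) P x).imp_right fun w => w.trans ?_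
    refine add_le_add le_rfl (mul_le_mul_of_nonneg_right ?_ (psi_nn h P x))
    nlinarith [m2 i.rev]
  · rw [a3, ψE]
    refine (abs_le.1 (vm _).1).2.trans (mul_le_mul_of_nonneg_right ?_ k.a0.le)
    exact le_mul_of_one_le_left (zero_le_one.trans (m2 _)) c2
  · refine (congrArg (fun w => AlgebraicIndependent ℂ w) (funext fun i => ?_)).mp
      (y1.comp _ Fin.rev_injective)
    rw [ini, a3, a4, Function.comp_apply, e]
  have lM : l ≤ M * l := le_mul_of_one_le_left (zero_le_one.trans l1) M1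
  have cD : ∀ j : ℤ, (j : ℝ) • rE E Z (dv E.t) + (M * l) • rE E Z (psi N g Γ) ∈ Car E.κ := fun j =>
    add_mem ((Car _).smul_mem _ k.smp.car) ((Car _).smul_mem _ k.rp.car)
  obtain ⟨r, π, hr, hπ⟩ := cnt (Lz.Sl (Ov s₀ R₀) (psi N g Γ) l) E
    (Finset.Icc (-⌊M * l * ld (n + 2) Γ E⌋) ⌊M * l * ld (n + 2) Γ E⌋)
    (fun j => H0 ((j : ℝ) • rE E Z (dv E.t) + (M * l) • rE E Z (psi N g Γ)))
    (fun j => hM.fin n _ k.ff _ ((hM.isb n _ k.ff).1 _ (cD j))) fun f x f0 _ =>
      mem_H0.2 (.inr ((sec hR h x f0).trans (add_le_add le_rfl (add_le_add le_rfl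
        (smul_le_smul_of_nonneg_right lM k.nn)))))
  refine ⟨r, π, ?_, fun f x => or_iff_not_imp_left.2 fun f0 => not_lt.1 fun w =>
    (hπ f x).resolve_left f0 (Finset.mem_Icc.2 ⟨neg_le.1 (Int.le_floor.2 ?_), Int.le_floor.2 ?_⟩)⟩
  · have := m4 (M * l) (Finset.Icc (-⌊M * l * ld (n + 2) Γ E⌋) ⌊M * l * ld (n + 2) Γ E⌋)
      (l1.trans lM) fun j x => by
        have : (|j| : ℤ) ≤ _ := abs_le.2 (Finset.mem_Icc.1 x)
        exact_mod_cast Int.le_floor.1 this
    rw [← Equiv.prod_comp Fin.revPerm] at this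
    rw [hr]
    push_cast
    refine this.trans (mul_le_mul (le_mul_of_one_le_left (zero_le_one.trans c1) c2)
      (le_of_eq (Finset.prod_congr rfl fun i _ => ?_)) (Finset.prod_nonneg fun i _ => by
        have := m2 (Fin.revPerm i)
        positivity) (by positivity))
    rw [mul_assoc, mul_assoc, mul_div_mul_left _ _ c0.ne']
    simp
  · have := (Lz.mem_Sl.1 f.2 E h.ov).resolve_left f0
    rw [ψE] at this
    push_cast
    linarith [mul_le_mul_of_nonneg_right lM k.a0.le]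
  · exact ψE ▸ w.le

end Vale.Agent.P283B.Sp
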