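import Vale.Agent.P283B.SP.St
import Vale.Agent.P283B.LL.PigA

/-!
# P283B, block SP: the data on the residue field (row KO)
-/

noncomputable section

namespace Vale.Agent.P283B.Sp

open P287D

theorem ko : KO := fun n q N C K _ _ Γ s₀ R₀ g E Z h dc => by
  have hK := h.ff
  have N0 : (N : ℝ) ≠ 0 := by exact_mod_cast h.N0.ne'
  have q0 : (q : ℝ) ≠ 0 := by exact_mod_cast h.q0.ne'
  have s0 := smp_mx s₀
  have iz := (Api.mod.isb _ K hK).2.2
  have dl : Dsc (mx s₀) (lam N g) := (Dsc.dv s0 g).smul _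
  have dp : Dsc (mx s₀) (psi N g Γ) := dl.sub h.rel.pr.des
  have ql : CarQ (lam N g) := by simpa [lam] using (carQ_dv g).qsmul (N : ℚ)⁻¹
  have qp : CarQ (psi N g Γ) := ql.sub h.rel.pr.rat
  have ea : ld (n + 2) Γ E = psi N g Γ E := by
    have := h.lc
    simp only [ld, dsc, psi, Pi.sub_apply] at this ⊢
    linarith
  obtain ⟨x, hx⟩ := qp.rat E
  have cZ := h.rat.car
  have qb : CarQ (psi N g Γ - psi N g Γ E • Z) := hx ▸ qp.sub (h.rat.qsmul x)
  have e1 : dv E.t E = 1 := by rw [dv_apply, E.ord_t, Int.cast_one]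
  have p0 : ∀ P, Ov s₀ R₀ P → 0 ≤ psi N g Γ P := fun P u => by
    have := h.lcc.1.2 P u
    simp only [psi, lam, Pi.sub_apply, Pi.smul_apply, smul_eq_mul, dv_apply]
    rwa [sub_nonneg, le_inv_mul_iff₀ (by exact_mod_cast h.N0)]
  have nn : 0 ≤ rE E Z (psi N g Γ) := h.pos _ qb.car (by simp [h.one])
    fun P u => sub_nonneg.2 (h.le _ dp p0 P u)
  have int : ∀ Q, ∃ z : ℕ, N * ld (n + 1) (adj (n + 1) E (lam N g)) Q = z := fun Q => by
    obtain ⟨R, -, -, c, -, e⟩ := a2 _ K hK E Q {lam N g} (mx s₀) 0 (Set.toFinite _)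
      (Set.singleton_subset_iff.2 dl.car) s0.car
    have e := e _ rfl
    rw [show dsc (n + 1 + 1) (lam N g) E + 1 = 0 from h.lc, zero_mul, add_zero] at e
    obtain ⟨z, hz⟩ := iz R
    have k := h.lcc.2 R (Lh.ov_of_cle hK h.cl (c.trans h.pt))
    have k' : N * ld (n + 1) (adj (n + 1) E (lam N g)) Q = (N * (z + 1) - R.ord g : ℤ) := by
      rw [ld, e]
      simp only [dsc, lam, Pi.sub_apply, Pi.smul_apply, smul_eq_mul, dv_apply, hz]
      push_cast
      field_simp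
      ring
    rw [hz] at k
    obtain ⟨m, hm⟩ := Int.eq_ofNat_of_zero_le (a := N * (z + 1) - R.ord g)
      (by rw [sub_nonneg]; exact_mod_cast k)
    exact ⟨m, by rw [k', hm, Int.cast_natCast]⟩
  have rs : ∀ β, Dsc (mx s₀) β → rE E Z β = res E β - β E • res E Z := fun β d => by
    rw [rE, res_sub hK E d.car (Submodule.smul_mem _ _ cZ), res'.smul _ K hK E _ _ cZ]
  refine ⟨Gm.ff_κ E hK, h.N0, by nlinarith [h.q0, h.N0], h.klt E h.ov, ⟨x, ea.trans hx⟩, ?_, int,
    h.smp, h.big, res_carQ hK E (by rw [e1, one_smul]; exact (carQ_dv _).sub h.rat),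
    res_carQ hK E qb, nn, ?_, fun Q o => ?_, dc⟩
  · simpa using add_mem (a1 _ K hK E _ dl.car).2.1 (h.prn _ dl)
  · convert sub_mem (h.prn _ dp) (Submodule.smul_mem _ (psi N g Γ E) (h.prn _ (.dv s0 E.t))) using 1
    rw [rs _ dp, rs _ (.dv s0 _), e1, ea]
    module
  · have e : ld (n + 1) (adj (n + 1) E (Γ + ld (n + 2) Γ E • Z)) Q =
        ld (n + 1) (adj (n + 1) E (lam N g)) Q + rE E Z (psi N g Γ) Q := by
      have := (a4 _ K hK E _ (add_mem h.rel.pr.des.car (Submodule.smul_mem _ (psi N g Γ E) cZ))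
        _ qb.car).1
      rw [show Γ + psi N g Γ E • Z + (psi N g Γ - psi N g Γ E • Z) = lam N g by
        rw [add_add_sub_cancel, psi]; abel] at this
      rw [this, ea]
      simp only [ld, dsc, rE, Pi.sub_apply, Pi.add_apply]
      ring
    obtain ⟨z, hz⟩ := int Q
    have l0 : 0 ≤ ld (n + 1) (adj (n + 1) E (lam N g)) Q :=
      nonneg_of_mul_nonneg_right (hz ▸ Nat.cast_nonneg z) (by exact_mod_cast h.N0)
    obtain ⟨r, r0, r1, r2⟩ := h.idx Q o (e ▸ l0.eq_or_lt.elim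
      (fun y => by rw [← y, zero_add]; exact (dc Q y.symm).1)
      fun y => add_pos_of_pos_of_nonneg y (nn Q))
    obtain ⟨k, hk⟩ := r2 _ (dp.smul (q * N)) fun P o u => by
      obtain ⟨j, hj⟩ := h.cf P o u
      obtain ⟨i, hi⟩ := iz P
      refine ⟨q * P.ord g - N * (q * i + j), ?_⟩
      simp only [ld, dsc, Pi.sub_apply, hi] at hj
      have : Γ P = i + j / q := by linarith
      simp only [psi, lam, Pi.sub_apply, Pi.smul_apply, smul_eq_mul, dv_apply, this]
      push_cast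
      field_simp
    refine ⟨r, r0, r2 _ (.dv s0 _) fun P _ _ => ⟨_, rfl⟩, ⟨2 * k, ?_⟩, e ▸ r1⟩
    rw [rs _ (dp.smul _), res'.smul _ K hK E _ _ dp.car] at hk
    rw [rs _ dp]
    simp only [Pi.sub_apply, Pi.smul_apply, smul_eq_mul] at hk ⊢
    push_cast
    linear_combination 2 * hk

end Vale.Agent.P283B.Sp
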