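import Vale.Agent.P283B.SP.St
import Vale.Agent.P283B.LC.Loc
import Vale.Agent.P287D.Cb.Lg

/-!
# P283B, block SP: the row `LIFT`
-/

set_option linter.unusedVariables false

open Set
open Vale.Agent.P297Z

noncomputable section

namespace Vale.Agent.P283B.Sp

open P287D Mk

/-- **LIFT** -/
theorem lift : LIFT := fun n q N K _ _ Γ s R₀ g E Z h l j u u0 l0 lj k => by
  have hK := h.ff
  have p := h.rel.pr
  have N0 : (0 : ℝ) < N := Nat.cast_pos.2 h.N0
  have q0 : (0 : ℝ) < q := Nat.cast_pos.2 h.q0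
  obtain ⟨v, vm, rfl⟩ := Bm.rd_surj E u
  have v0 := mt (On.rd_zero_iff E vm).2 u0
  rw [not_or] at v0
  have v1 : E.ord v = 0 := le_antisymm (not_lt.1 v0.2) (Pl.ord_nonneg_of_mem _ vm)
  have t0 := zpow_ne_zero j E.t_ne
  have dL : Dsc (mx s) (lam N g) := (Dsc.dv p.smp g).smul _
  have dψ : Dsc (mx s) (psi N g Γ) := dL.sub p.des
  have e : ∀ P, ld (n + 2) (lam N g) P + psi N g Γ P = ld (n + 2) Γ P := fun P => by
    simp only [ld, dsc, psi, Pi.sub_apply]; ring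
  have eψ : ∀ P, N * psi N g Γ P = P.ord g - N * Γ P := fun P => by
    simp only [psi, lam, Pi.sub_apply, Pi.smul_apply, dv_apply, smul_eq_mul]; field_simp
  have ψ0 : ∀ P, Ov s R₀ P → 0 ≤ psi N g Γ P := fun P o =>
    nonneg_of_mul_nonneg_right (eψ P ▸ sub_nonneg.2 (h.lcc.1.2 P o)) N0
  have a := e E
  rw [h.lc, zero_add] at a
  rw [← a] at lj
  obtain ⟨W, hW⟩ : ∃ W, W = l • psi N g Γ + (dv v + (j : ℝ) • dv E.t) := ⟨_, rfl⟩
  have dW : Dsc (mx s) W := hW ▸ (dψ.smul l).add ((Dsc.dv p.smp v).add ((Dsc.dv p.smp _).smul _))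
  obtain ⟨c, nc⟩ := h.nef
  obtain ⟨c₁, -, n1⟩ := (dW.sub dL).exists_add
  obtain ⟨b, hb⟩ : ∃ b, b = l * psi N g Γ E + j := ⟨_, rfl⟩
  rw [← hb] at lj
  have n2 := (n1 c₁ le_rfl).nef.add (nc.smul lj)
  have e2 : (c₁ + b * c + 1) • mx s - (lam N g - (W - b • Z)) =
      mx s + (W - lam N g + c₁ • mx s + b • (c • mx s - Z)) := by module
  have cZ := h.rat.car
  have tE : dv E.t E = 1 := by rw [dv_apply, E.ord_t, Int.cast_one]
  obtain ⟨x, x0, x1, x2, x3⟩ := Lcb.lift hK h.ov (Γ := lam N g - (W - b • Z)) (by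
      have := h.lc
      simp only [Lcb.dsc_sub, hW, hb, Pi.sub_apply, Pi.add_apply, Pi.smul_apply, h.one, tE,
        dv_apply v, v1, smul_eq_mul, ld] at this ⊢
      push_cast
      linarith)
    (e2 ▸ p.smp.nef.add n2) (e2 ▸ p.big.add_nef n2) fun Q _ => by
      have := k Q
      rw [Lcb.adj_sub hK dL.car (sub_mem dW.car (Submodule.smul_mem _ _ cZ)), Lcb.dsc_sub,
        show W - b • Z = dv v + (j : ℝ) • (dv E.t - dv E.t E • Z) +
          l • (psi N g Γ - psi N g Γ E • Z) by rw [hW, hb, tE]; module,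
        res_add_smul hK E (add_mem (dv_mem_Car _) (Submodule.smul_mem _ _ (sub_mem (dv_mem_Car _)
          (Submodule.smul_mem _ _ cZ)))) (sub_mem dψ.car (Submodule.smul_mem _ _ cZ)),
        res_add_smul hK E (dv_mem_Car _) (sub_mem (dv_mem_Car _) (Submodule.smul_mem _ _ cZ)),
        res_dv_unit hK E v0.1 v1]
      rw [ld, rE, rE] at this
      linarith
  have f0 := mul_ne_zero (mul_ne_zero x0 v0.1) t0
  have fo : ∀ P : Pl K, P.ord (x * v * E.t ^ j) = P.ord x + P.ord v + j * P.ord E.t := fun P => by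
    rw [Pl.ord_mul _ (mul_ne_zero x0 v0.1) t0, Pl.ord_mul _ x0 v0.1, Pl.ord_zpow]
  have fE : E.ord (x * v * E.t ^ j) = j := by rw [fo, x1, v1, E.ord_t]; ring
  refine ⟨x * v * E.t ^ j, Lz.mem_Sl.2 fun P o => .inr ?_, f0, fE, by
    rw [mul_div_cancel_right₀ _ t0, Cb.rd_mul ((Pl.ord_nonneg_iff _ x0).1 x1.ge) vm, x2, one_mul]⟩
  refine Lcb.le_ov hK p.big (.refl p.smp) (.zero p.smp)
    ((Dsc.dv p.smp _).add (dψ.smul (l + q * N))) (fun P on o => ?_) o
  change 0 ≤ (P.ord (x * v * E.t ^ j) : ℝ) + (l + q * N) * psi N g Γ P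
  have ψ1 := mul_nonneg (mul_pos q0 N0).le (ψ0 P o)
  by_cases y : P = E
  · rw [y] at ψ1 ⊢
    rw [fE]
    linarith
  have z : -ld (n + 2) (lam N g) P < P.ord (x * v * E.t ^ j) + l * psi N g Γ P := by
    have := x3 P o y
    have := mul_nonneg lj (h.nn P o)
    simp only [Lcb.dsc_sub, hW, Pi.sub_apply, Pi.add_apply, Pi.smul_apply, dv_apply,
      smul_eq_mul, ld, fo] at *
    push_cast
    linarith
  have l1 : ld (n + 2) Γ P ≤ 1 := by have := p.bdy P on; rw [ld]; linarith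
  obtain ⟨i, hi⟩ := h.cf P on o
  obtain ⟨w, hw⟩ := (Ba.mod.isb _ K hK).2.2 P
  have zi : q * N * psi N g Γ P = (q * P.ord g - N * (q * w + i) : ℤ) := by
    have : Γ P = w + i / q := by rw [← hi, ← hw, ld, dsc, Pi.sub_apply]; ring
    rw [mul_assoc, eψ, this]
    push_cast
    field_simp
  rcases (ψ0 P o).eq_or_lt with y | y
  · have := e P
    rw [← y] at z this ⊢
    have : ((-1 : ℤ) : ℝ) < P.ord (x * v * E.t ^ j) := by push_cast; linarith
    simpa using Int.cast_nonneg (R := ℝ) (Int.lt_add_one_iff.1 (by linarith [Int.cast_lt.1 this]))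
  · have := Int.cast_one_le_of_pos (R := ℝ) (Int.cast_pos.1 (zi ▸ mul_pos (mul_pos q0 N0) y))
    linarith [e P]

end Vale.Agent.P283B.Sp
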