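import Vale.Agent.P283B.SP.St
import Vale.Agent.P287D.Gm.Cl
import Vale.Agent.P287D.Gs.Ful
import Vale.Agent.P287D.Pr.Lr
import Vale.Agent.P287D.Va.Des

/-!
# P283B, block SP: Minkowski for the class `Pre` and for the graded ring
-/

set_option linter.unusedVariables false
set_option linter.unusedSectionVars false

open Set

noncomputable section

namespace Vale.Agent.P283B.Sp

open P287D Mk

namespace M1

variable {K K' : Type} [Field K] [Algebra ℂ K] [Field K'] [Algebra ℂ K'] {n : ℕ} {S T : Set K}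

theorem rk_cl (h : ∀ x ∈ S, x ∈ Gm.Cl T) : rk S ≤ rk T := by
  rw [rk, rk, ← Matroid.eRk_closure_eq _ T, ← Gm.cl_eq]
  exact Matroid.eRk_mono _ h

theorem rk_le_dim (hK : FF K n) (S : Set K) : rk S ≤ n := by
  obtain ⟨y, hy, -⟩ := id hK
  refine (rk_cl fun x _ => Gm.cl_basis hK hy (by simp) x).trans
    ((Matroid.eRk_le_encard _ _).trans ?_)
  simpa using encard_image_le y univ

theorem rk_map {ρ : K →+* K'} (hc : Cst ρ) {S' T : Set K'} (h : ∀ x ∈ S', x ∈ Gm.Cl (ρ '' S ∪ T)) :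
    rk S' ≤ rk S + T.encard := by
  obtain ⟨I, hI⟩ := (AlgebraicIndependent.matroid ℂ K).exists_isBasis S
  refine (rk_cl (T := ρ '' I ∪ T) fun x hx => Gm.cl_le ?_ (h x hx)).trans
    ((Matroid.eRk_le_encard _ _).trans ((encard_union_le _ _).trans
      (add_le_add_left ((encard_image_le _ _).trans_eq hI.encard_eq_eRk) _)))
  rintro _ (⟨x, hx, rfl⟩ | hx)
  · exact Gm.cl_map hc (S := I) (fun y hy => Gm.sub_Cl (.inl ⟨y, hy, rfl⟩))
      (show x ∈ (Gm.Cl I : Set K) from Gm.cl_eq I ▸ hI.subset_closure hx)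
  · exact Gm.sub_Cl (.inr hx)

theorem le_rk {y : Fin n → K} (hy : AlgebraicIndependent ℂ y) (h : ∀ i, y i ∈ S) :
    (n : ℕ∞) ≤ rk S := by
  have := (AlgebraicIndependent.matroid_indep_iff.2 hy.to_subtype_range).encard_le_eRk_of_subset
    (range_subset_iff.2 h)
  rwa [← image_univ, hy.injective.encard_image, encard_univ, ENat.card_eq_coe_fintype_card,
    Fintype.card_fin] at this

theorem lau_mem {u : RatFunc K} {c : ℤ →₀ K} {F : IntermediateField ℂ (RatFunc K)}
    (h : ∀ j ∈ c.support, algebraMap K (RatFunc K) (c j) * u ^ j ∈ F) : lau u c ∈ F := sum_mem h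

theorem fin_H0 (hK : FF K (n + 1)) {β : BD K} (h : β ∈ Car K) : Module.Finite ℂ (H0 β) :=
  Ba.mod.fin n K hK β ((Ba.mod.isb n K hK).1 β h)

/-- the powers of a transcendental element are independent -/
theorem zpow_ind [Algebra K K'] {u : K'} (hu : Transcendental K u) (T : Finset ℤ) (c : T → K)
    (h : ∑ j, algebraMap K K' (c j) * u ^ (j : ℤ) = 0) : c = 0 := by
  classical
  have u0 : u ≠ 0 := fun e => hu (e ▸ isAlgebraic_zero)
  obtain ⟨N, hN⟩ := T.bddBelow
  have e : ∀ j : T, (((j : ℤ) - N).toNat : ℤ) = j - N := fun j =>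
    Int.toNat_of_nonneg (sub_nonneg.2 (hN j.2))
  have z : ∑ j : T, Polynomial.monomial ((j : ℤ) - N).toNat (c j) = 0 := by_contra fun z =>
    hu ⟨_, z, by
      rw [map_sum, ← zero_mul (u ^ (-N)), ← h, Finset.sum_mul]
      exact Finset.sum_congr rfl fun j _ => by
        rw [Polynomial.aeval_monomial, ← zpow_natCast, e, mul_assoc, ← zpow_add₀ u0,
          sub_eq_add_neg]⟩
  funext j
  have := congrArg (Polynomial.coeff · ((j : ℤ) - N).toNat) z
  rw [Polynomial.finsetSum_coeff, Finset.sum_eq_single j (fun i _ hi =>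
    Polynomial.coeff_monomial_of_ne _ fun x => hi (Subtype.ext (by
      have := e i; have := e j; omega))) (by simp)] at this
  simpa using this

/-- graded pieces of a space of sections -/
theorem sum_le [Algebra K K'] [IsScalarTower ℂ K K'] {u : K'} (hu : Transcendental K u)
    (T : Finset ℤ) (V : ℤ → BD K) (W : BD K') (f : ∀ j, Module.Finite ℂ (H0 (V j)))
    (g : Module.Finite ℂ (H0 W))
    (h : ∀ j ∈ T, ∀ f, Sec (V j) f → Sec W (algebraMap K K' f * u ^ j)) :
    ∑ j ∈ T, h0 (V j) ≤ h0 W := by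
  let φ : (∀ j : T, H0 (V j)) →ₗ[ℂ] H0 W :=
    { toFun := fun x => ⟨∑ j : T, algebraMap K K' (x j) * u ^ (j : ℤ),
        sum_mem fun j _ => mem_H0.2 (h j j.2 _ (mem_H0.1 (x j).2))⟩
      map_add' := fun x y => Subtype.ext (by simp [add_mul, Finset.sum_add_distrib])
      map_smul' := fun c x => Subtype.ext (by
        simp [Finset.mul_sum, Algebra.smul_def, ← IsScalarTower.algebraMap_apply, mul_assoc]) }
  have := LinearMap.finrank_le_finrank_of_injective (f := φ) ((injective_iff_map_eq_zero φ).2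
    fun x e => funext fun j => Subtype.ext
      (congrFun (zpow_ind hu T (fun j => x j) (congrArg Subtype.val e)) j))
  rwa [Module.finrank_pi_fintype, Finset.sum_coe_sort T fun j => Module.finrank ℂ (H0 (V j))]
    at this

end M1

open M1

theorem smk1 : SMK1 := fun su mk d n b C => by
  by_cases nb : 0 < n * b
  swap
  · exact ⟨1, le_rfl, fun K _ _ Γ Ψ H₁ p => absurd (mul_pos p.n0 (two_pos.trans_le p.b2)) nb⟩
  obtain ⟨C₁, c1, mk⟩ := mk (d + 1) (n * b) (max C 1) nb (by positivity)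
  have bb : (0 : ℝ) ≤ b := b.cast_nonneg
  have cb := mul_nonneg c1 bb
  refine ⟨(1 + 2 * C₁) * (1 + b), by nlinarith, fun K _ _ Γ Ψ H₁ p => ?_⟩
  obtain ⟨Γ', H', i, ce, s1, s2, -⟩ := su K d n b C Γ Ψ H₁ p
  obtain ⟨μ, y, mt, cnt⟩ := mk _ i.ff Γ' H' i ce
  have b0 : (0 : ℝ) < b := Nat.cast_pos.2 (two_pos.trans_le p.b2)
  let σ := Tuple.sort μ
  have mo : Monotone (μ ∘ σ) := Tuple.monotone_sort μ
  have cs : Cst (algebraMap K (RatFunc K)) := fun c => ⟨c, IsScalarTower.algebraMap_apply _ _ _ _⟩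
  have up : ∀ k : Fin (d + 2), ((k.1 + 1 : ℕ) : ℕ∞) ≤ rk {f | Sec (μ (σ k) • H') f} := fun k =>
    le_rk (y := fun j => y (σ (j.castLE k.2)))
      (mt.ind.comp _ (σ.injective.comp (Fin.castLE_injective _))) fun j => (mt.sec _).mono
        (smul_le_smul_of_nonneg_right (mo (Nat.lt_succ_iff.1 j.2 : j.castLE k.2 ≤ k)) i.nn)
  have d1 : ∀ l : ℝ, 0 ≤ l → rk {f | Sec (l • H') f} ≤ rk {f | Sec (l • (Ψ + H₁)) f} + 1 :=
    fun l l0 => (rk_map cs (S := {f | Sec (l • (Ψ + H₁)) f}) (T := {RatFunc.X - 1}) fun f hf => by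
      obtain ⟨c, rfl, hc⟩ := s1 l f l0 hf
      exact lau_mem fun j hj => mul_mem (Gm.sub_Cl (.inl ⟨_, (hc j hj).2.2, rfl⟩))
        (zpow_mem (Gm.sub_Cl (.inr rfl)) _)).trans_eq (by rw [encard_singleton])
  have d0 : ∀ l : ℝ, 0 ≤ l → l < b → rk {f | Sec (l • H') f} ≤ rk {f | Sec (l • (Ψ + H₁)) f} :=
    fun l l0 lb => (rk_map cs (S := {f | Sec (l • (Ψ + H₁)) f}) (T := ∅) fun f hf => by
      obtain ⟨c, rfl, hc⟩ := s1 l f l0 hf
      refine lau_mem fun j hj => ?_
      obtain ⟨h1, h2, h3⟩ := hc j hj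
      obtain rfl : j = 0 := by
        have : (-1 : ℝ) < j := lt_of_mul_lt_mul_left (by linarith) bb
        have : -1 < j := by exact_mod_cast this
        omega
      rw [zpow_zero, mul_one]
      exact Gm.sub_Cl (.inl ⟨_, h3, rfl⟩)).trans_eq (by rw [encard_empty, add_zero])
  have ex : ∃ k : Fin (d + 2), (b : ℝ) ≤ μ (σ k) := ⟨.last _, not_lt.1 fun z => by
    have := (up (.last _)).trans ((d0 _ (mt.pos _).le z).trans (rk_le_dim p.ff _))
    simp only [Fin.val_last, Nat.cast_le] at this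
    omega⟩
  classical
  obtain ⟨k₀, k1, k2⟩ : ∃ k₀ : Fin (d + 2), (b : ℝ) ≤ μ (σ k₀) ∧ ∀ k < k₀, μ (σ k) < b :=
    ⟨Fin.find _ ex, Fin.find_spec ex, fun k hk => not_le.1 (Fin.find_min ex hk)⟩
  refine ⟨fun k => μ (σ (k₀.succAbove k)), mo.comp (Fin.strictMono_succAbove k₀).monotone,
    fun k => mt.pos _, fun k => ?_, fun l l1 => ?_⟩
  · beta_reduce
    rcases lt_or_ge k.castSucc k₀ with z | z
    · rw [Fin.succAbove_of_castSucc_lt _ _ z]
      exact (up k.castSucc).trans (d0 _ (mt.pos _).le (k2 _ z))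
    · rw [Fin.succAbove_of_le_castSucc _ _ z]
      have := (up k.succ).trans (d1 _ (mt.pos _).le)
      rw [Fin.val_succ, Nat.cast_add_one (k.1 + 1)] at this
      exact (ENat.add_le_add_iff_right ENat.one_ne_top).1 this
  · obtain ⟨k, k3, k4⟩ : ∃ k : ℕ, l ≤ b * k ∧ (b : ℝ) * k ≤ (1 + b) * l := ⟨⌈l / b⌉₊,
      (div_le_iff₀' b0).1 (Nat.le_ceil _), by
        have := (lt_div_iff₀ b0).1
          (sub_lt_iff_lt_add.2 (Nat.ceil_lt_add_one (by positivity : 0 ≤ l / b)))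
        nlinarith⟩
    have tr : Transcendental K (RatFunc.X - 1 : RatFunc K) := fun a =>
      RatFunc.transcendental_X (by simpa using a.add isAlgebraic_one)
    have a1 := sum_le tr (Finset.Icc (-(2 * k : ℕ) : ℤ) (-k)) (fun _ => l • (Ψ + H₁))
      (((b : ℝ) * (2 * k : ℕ)) • H') (fun _ => fin_H0 p.ff (Submodule.smul_mem _ _ p.smp.car))
      (fin_H0 i.ff (Submodule.smul_mem _ _ i.smp.car)) fun j hj f hf => by
        obtain ⟨j1, j2⟩ := Finset.mem_Icc.1 hj
        obtain ⟨m, rfl⟩ : ∃ m : ℕ, j = -m := ⟨(-j).toNat, by omega⟩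
        rw [zpow_neg, zpow_natCast, ← div_eq_mul_inv]
        exact s2 l f m _ hf (k3.trans (mul_le_mul_of_nonneg_left (Nat.cast_le.2 (by omega)) bb))
          (by omega)
    rw [Finset.sum_const, Int.card_Icc, show (-k + 1 - -((2 * k : ℕ) : ℤ)).toNat = k + 1 by omega,
      smul_eq_mul] at a1
    have a2 := (Nat.cast_le.2 a1).trans (cnt _ (by positivity))
    rw [← Equiv.prod_comp σ, Fin.prod_univ_succAbove _ k₀] at a2
    push_cast at a2
    have k0 : (0 : ℝ) ≤ k := k.cast_nonneg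
    have a3 : 1 + C₁ * (b * (2 * k)) / μ (σ k₀) ≤ (k + 1) * ((1 + 2 * C₁) * (1 + b)) := by
      have : C₁ * (b * (2 * k)) / μ (σ k₀) ≤ C₁ * (2 * k) := by
        rw [div_le_iff₀ (mt.pos _)]
        nlinarith [mul_le_mul_of_nonneg_left k1 (by positivity : 0 ≤ C₁ * (2 * k))]
      nlinarith [mul_nonneg k0 cb, mul_nonneg k0 bb]
    refine le_of_mul_le_mul_left (a2.trans (le_of_le_of_eq ?_ (mul_assoc _ _ _)))
      (by positivity : (0 : ℝ) < k + 1)
    refine mul_le_mul a3 (Finset.prod_le_prod (fun j _ => ?_) fun j _ => ?_)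
      (Finset.prod_nonneg fun j _ => ?_) (by positivity)
    · have := mt.pos (σ (k₀.succAbove j))
      positivity
    · refine add_le_add_right (div_le_div_of_nonneg_right ?_ (mt.pos _).le) _
      nlinarith [mul_le_mul_of_nonneg_left k4 c1]
    · have := mt.pos (σ (k₀.succAbove j))
      positivity

theorem M1.mk2 : SMK2 := fun co al mk n m b C => by
  obtain ⟨C₁, c1, mk⟩ := mk (n + 1) m b (2 * max C 1)
  obtain ⟨t, t0, al⟩ := al n m b C
  have s0 : 0 < min t 1 := by positivity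
  have s1 : 1 ≤ (min t 1)⁻¹ := (one_le_inv₀ s0).2 (min_le_right _ _)
  refine ⟨C₁ * (min t 1)⁻¹, by nlinarith, fun K _ _ a L p D o => ?_⟩
  obtain ⟨Γ, Ψ, H₁, pr, s2, s3⟩ := co K n m b C a L p D o
  obtain ⟨μ, mo', m0, rk', cnt⟩ := mk _ Γ Ψ H₁ pr
  have a0 := o.a0
  have am : AmpOn D (p + 0) := ((AmpOn.refl o.smp).smul a0).congr (by simpa using o.lin)
  have al := fun G r => al K L p G ⟨o.ff, o.m0, o.b2, o.prn, o.int, am.smp,
    (o.big.smul a0).congr (by simpa using o.lin), .zero, .zero (am.smp), o.rp, .zero, o.nn,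
    le_rfl, fun w x => let ⟨r, a, _, c⟩ := o.idx w ((Pr.on_iff res' o.ff o.smp am).2 x); ⟨r, a, c⟩,
    fun w _ => .inl rfl, by simpa using o.cen⟩ r
  have vv : ∀ k : Fin (n + 2), ((k.1 + 1 : ℕ) : ℕ∞) ≤ rk (VV a p D (μ k)) := fun k =>
    (rk' k).trans (rk_cl fun f hf => by
      obtain ⟨c, rfl, hc⟩ := s2 _ f (m0 k).le hf
      exact lau_mem fun j hj => Gm.sub_Cl ⟨j, _, Finsupp.mem_support_iff.1 hj, hc j hj, rfl⟩)
  have lc : ∀ Q, 0 ≤ ld (n + 1) L Q := fun Q => let ⟨z, e⟩ := o.int Q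
    (mul_nonneg_iff_of_pos_left (Nat.cast_pos.2 o.m0)).1 (e ▸ z.cast_nonneg)
  have nb : ∀ (j : ℤ) (u : K), j ≠ 0 → dv u + (j : ℝ) • D ≠ 0 := fun j u j0 z => by
    have := (big_iff_dim o.ff o.big.eff).1 o.big
    rw [(prn_iff_dim o.ff o.smp).1 (((Prn K).smul_mem_iff (Int.cast_ne_zero.2 j0 : (j : ℝ) ≠ 0)).1
      (eq_neg_of_add_eq_zero_right z ▸ neg_mem (dv_mem_Prn u)))] at this
    omega
  have low : ∀ k, min t 1 ≤ μ k := fun k => not_lt.1 fun z => by
    obtain ⟨z1, z2⟩ := lt_min_iff.1 z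
    refine absurd ((vv k).trans (rk_cl (T := ∅) ?_)) (by simp [rk])
    rintro _ ⟨j, u, u0, ⟨h1, h2⟩, rfl⟩
    have dd := (Dsc.dv o.smp u).add ((Dsc.refl o.smp).smul j)
    have it : ∀ Q, On n D Q → ∃ r : ℕ, 0 < r ∧ r * (ld (n + 1) L Q + p Q) ≤ 1 ∧
        ∃ x : ℤ, r * (dv u + (j : ℝ) • D) Q = x := fun Q x =>
      let ⟨r, r0, ⟨x, e⟩, _, r1⟩ := o.idx Q x
      ⟨r, r0, r1, r * Q.ord u + j * x, by simp [← e, dv_apply]; ring⟩
    have g0 : 0 ≤ dv u + (j : ℝ) • D := Gs.det neg' o.ff o.smp o.big dd fun Q x => by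
      obtain ⟨r, r0, r1, x, e⟩ := it Q x
      have r2 : (0 : ℝ) < r := Nat.cast_pos.2 r0
      have h := h2.resolve_left u0 Q
      simp only [Pi.add_apply, Pi.smul_apply, Pi.zero_apply, smul_eq_mul] at h e ⊢
      have : (-1 : ℝ) < x := by
        nlinarith [mul_nonneg r2.le h, mul_nonneg r2.le (lc Q), mul_nonneg r2.le (o.nn Q), m0 k]
      have : (0 : ℝ) ≤ x := by exact_mod_cast (show 0 ≤ x by have : -1 < x := (by exact_mod_cast this); omega)
      exact (mul_nonneg_iff_of_pos_left r2).1 (e ▸ this)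
    rcases lt_trichotomy j 0 with j0 | rfl | j0
    · have x := (o.big.smul (neg_pos.2 (Int.cast_lt_zero.2 j0) : (0 : ℝ) < -j)).add_eff
        (⟨_, g0, by simpa using dv_mem_Prn u⟩ : Eff ((j : ℝ) • D))
      rw [neg_smul, neg_add_cancel, big_iff_dim o.ff .zero,
        (prn_iff_dim o.ff .zero).1 (zero_mem _)] at x
      omega
    · obtain ⟨c, rfl⟩ := const_of_sec o.ff (.inr (by simpa using g0) : Sec 0 u)
      exact Gm.cl_cst ⟨c, by
        rw [mo, zpow_zero, mul_one]; exact IsScalarTower.algebraMap_apply _ _ _ _⟩ _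
    · exfalso
      have j1 : (0 : ℝ) < j := Int.cast_pos.2 j0
      obtain ⟨Q, x, q⟩ : ∃ Q, On n D Q ∧ 0 < (dv u + (j : ℝ) • D) Q := by
        by_contra! c
        exact nb j u j0.ne' (le_antisymm (neg_nonneg.1 (Gs.det neg' o.ff o.smp o.big dd.neg
          fun Q x => neg_nonneg.2 (c Q x))) g0)
      obtain ⟨r, r0, r1, x, e⟩ := it Q x
      have r2 : (0 : ℝ) < r := Nat.cast_pos.2 r0
      have x1 : (1 : ℝ) ≤ x := Int.cast_one_le_of_pos (Int.cast_pos.1 (e ▸ mul_pos r2 q))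
      have := al ((a / j) • (dv u + (j : ℝ) • D)) ⟨smul_nonneg (by positivity) g0, by
        rw [smul_add, smul_smul, div_mul_cancel₀ _ j1.ne', add_sub_assoc]
        exact add_mem ((Prn K).smul_mem _ (dv_mem_Prn u)) (by simpa using neg_mem o.lin)⟩ Q
      rw [Pi.smul_apply, smul_eq_mul] at this
      have y : t * (a / j) ≤ 1 := by
        nlinarith [mul_le_mul_of_nonneg_left this r2.le, (by positivity : 0 < t * (a / j))]
      rw [← mul_div_assoc, div_le_one j1] at y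
      nlinarith [le_abs_self (j : ℝ)]
  refine ⟨fun k => max (μ k) 1, mo'.max monotone_const, fun k => le_max_right _ _,
    fun k => (vv k).trans (Matroid.eRk_mono _ ?_), fun l T l1 hT => ?_⟩
  · rintro _ ⟨j, u, u0, ⟨h1, h2⟩, rfl⟩
    exact ⟨j, u, u0, ⟨h1.trans (mul_le_mul_of_nonneg_right (le_max_left _ _) a0.le), h2.mono
      (add_le_add_right (smul_le_smul_of_nonneg_right (le_max_left _ _) o.nn) _)⟩, rfl⟩
  · have a1 := sum_le RatFunc.transcendental_X T (fun j => (j : ℝ) • D + l • p) (l • (Ψ + H₁))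
      (fun _ => fin_H0 o.ff (add_mem (Submodule.smul_mem _ _ o.smp.car)
        (Submodule.smul_mem _ _ o.rp.car))) (fin_H0 pr.ff (Submodule.smul_mem _ _ pr.smp.car))
      fun j hj f hf => s3 l j f ⟨hT j hj, hf⟩
    have a2 := (Nat.cast_le (α := ℝ)).2 a1
    rw [Nat.cast_sum] at a2
    refine a2.trans ((cnt l l1).trans (mul_le_mul (by nlinarith)
      (Finset.prod_le_prod (fun j _ => ?_) fun j _ => ?_) (Finset.prod_nonneg fun j _ => ?_)
      (by positivity)))
    · have := m0 j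
      positivity
    · refine add_le_add_right ?_ _
      rw [div_le_div_iff₀ (m0 j) (by positivity), mul_right_comm C₁ (min t 1)⁻¹, mul_assoc (C₁ * l)]
      refine mul_le_mul_of_nonneg_left (max_le ?_ ?_) (by positivity)
      · exact le_mul_of_one_le_left (m0 j).le s1
      · exact (le_inv_mul_iff₀ s0).2 (by simpa using low j)
    · have := m0 j
      positivity

end Vale.Agent.P283B.Sp
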