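import Vale.Agent.P283B.SP.Rm

/-!
# P283B, block SP: the suspension
-/

set_option linter.unusedVariables false
set_option linter.unusedSectionVars false

open Set
open Vale.Agent.P297Z

noncomputable section

namespace Vale.Agent.P283B.Rul.Su

open P287D Wp Cb Ls.Ot Mk Sp

variable {K E : Type} [Field K] [Field E] [Algebra ℂ K] [Algebra ℂ E] [Algebra K E]
  [IsScalarTower ℂ K E] {d n b : ℕ} {C l : ℝ} {u j f : E} {w : Pl E} {Q : Pl K} {Γ Ψ H₁ : BD K}

variable (K) in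
/-- the coordinate of the line -/
def ss (u : E) : E := u + algebraMap K E 1

theorem ru_s (r : Ru K u) : Ru K (ss K u) := r.add 1

/-- the pair -/
def ga (u j : E) (b : ℕ) (Γ : BD K) : BD E := Rul.up j Γ + (b : ℝ)⁻¹ • dv (ss K u)

/-- the polarisation -/
def ha (u : E) (b : ℕ) (Ψ H₁ : BD K) : BD E := rm (ss K u) b (Ψ + H₁) H₁ + (b : ℝ)⁻¹ • dv u

theorem ld_ga (m : ℕ) (w : Pl E) :
    ld m (ga u j b Γ) w = ld m (Rul.up j Γ) w - w.ord (ss K u) / b := by
  simp only [ld, dsc, ga, Pi.sub_apply, Pi.add_apply, Pi.smul_apply, dv_apply, smul_eq_mul]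
  ring

theorem ha_apply (w : Pl E) : ha u b Ψ H₁ w = max (pb (algebraMap K E) (Ψ + H₁) w)
    (pb (algebraMap K E) H₁ w - w.ord (ss K u) / b) + w.ord u / b := by
  rw [ha, Pi.add_apply, rm_apply, div_eq_inv_mul (w.ord u : ℝ)]; rfl

theorem tri (r : Ru K u) (w : Pl E) : (w.ord (ss K u) = w.ord u ∧ w.ord u ≤ 0) ∨
    (0 < w.ord (ss K u) ∧ w.ord u = 0) ∨ (w.ord (ss K u) = 0 ∧ 0 < w.ord u) := by
  have s0 := (r.add 1).ne
  have e : algebraMap K E 1 = 1 := map_one _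
  have a := Pl.min_ord_le_add w.toPlace r.ne ((map_ne_zero (algebraMap K E)).2 one_ne_zero) s0
  have b := Pl.min_ord_le_add w.toPlace s0 (neg_ne_zero.2 (one_ne_zero (α := E)))
    (by simp [r.ne])
  have c := Pl.min_ord_le_add w.toPlace s0 (neg_ne_zero.2 r.ne) (by simp [e])
  have o : w.ord (1 : E) = 0 := by simpa using w.ord_const 1
  rw [show u + algebraMap K E 1 + -1 = u by simp, Pl.ord_neg, o] at b
  rw [show u + algebraMap K E 1 + -u = 1 by simp, Pl.ord_neg, o] at c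
  rw [show w.ord (algebraMap K E 1) = 0 from e ▸ o] at a
  simp only [ss]
  omega

theorem gs_u (r : Ru K u) (hK : FF K d) (g : Gs (ss K u) w Q) (o : w.ord (ss K u) ≤ 0) :
    w.ord u = w.ord (ss K u) := by
  have := (g.add (r.ff hK) (ru_s r).ne (c := -1) (by simp) (by simp)).2
  rw [show ss K u + algebraMap K E (-1) = u by simp [ss]] at this
  have := tri r w
  omega

theorem gs_s (r : Ru K u) (hK : FF K d) (g : Gs u w Q) : w.ord (ss K u) = min (w.ord u) 0 := by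
  have := (g.add (r.ff hK) r.ne (c := 1) one_ne_zero (by simp)).2
  have := tri r w
  simp only [ss] at *
  omega

theorem nj_s (r : Ru K u) (hK : FF K d) (nj : Nj K d u j) : Nj K d (ss K u) (j * ss K u / u) :=
  nj.add hK (r.ff hK) r.tr 1

theorem ld_s (r : Ru K u) (nj : Nj K d u j) (w : Pl E) :
    ld (d + 1) (Rul.up (j * ss K u / u) Γ) w = ld (d + 1) (Rul.up j Γ) w - w.ord (ss K u) + w.ord u := by
  simp only [ld, dsc, Rul.up, Pi.sub_apply, Pi.add_apply, dv_apply]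
  rw [Pl.ord_div _ (mul_ne_zero nj.ne (ru_s r).ne) r.ne, Pl.ord_mul _ nj.ne (ru_s r).ne]
  push_cast
  ring

variable (h : Pre d n b C Γ Ψ H₁) (r : Ru K u) (nj : Nj K (d + 1) u j)
include h

theorem b1 : (1 : ℝ) < b := by exact_mod_cast h.b2

theorem b0 : (0 : ℝ) < b := one_pos.trans (b1 h)

theorem lc (Q : Pl K) : 0 ≤ ld (d + 1) Γ Q := by
  obtain ⟨z, e⟩ := h.int Q
  exact nonneg_of_mul_nonneg_right (e ▸ z.cast_nonneg) (Nat.cast_pos.2 h.n0)

theorem p2 (w : Pl E) : 0 ≤ pb (algebraMap K E) H₁ w ∧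
    pb (algebraMap K E) H₁ w ≤ pb (algebraMap K E) (Ψ + H₁) w :=
  ⟨pb_nonneg _ h.p1 w, pb_mono _ (le_add_of_nonneg_left h.p0) w⟩

include r

theorem ha_nn : 0 ≤ ha u b Ψ H₁ := fun w => by
  have := p2 h w
  have := b0 h
  rw [Pi.zero_apply, ha_apply]
  rcases tri r w with ⟨a, -⟩ | ⟨-, a⟩ | ⟨-, a⟩
  · rw [a]; linarith [le_max_right (pb (algebraMap K E) (Ψ + H₁) w)
      (pb (algebraMap K E) H₁ w - w.ord u / b)]
  · rw [a]; simp only [Int.cast_zero, zero_div, add_zero, le_max_iff]; left; linarith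
  · exact add_nonneg (le_max_of_le_left (by linarith)) (by positivity)

theorem ha_zero (o : w.ord (ss K u) = 0) :
    ha u b Ψ H₁ w = pb (algebraMap K E) (Ψ + H₁) w + w.ord u / b := by
  rw [ha_apply, o, Int.cast_zero, zero_div, sub_zero, max_eq_left (p2 h w).2]

/-- the monomial places of the critical slope -/
theorem crit (g : Gs (ss K u) w Q)
    (e : (w.ord (ss K u) : ℝ) = -(b * (w.ord (algebraMap K E Q.t) * Ψ Q))) :
    w.ord u = w.ord (ss K u) ∧ ha u b Ψ H₁ w = w.ord (algebraMap K E Q.t) * H₁ Q := by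
  have e0 : (0 : ℝ) < w.ord (algebraMap K E Q.t) := Int.cast_pos.2 g.lies.e_pos
  have := b0 h
  have := h.p0 Q
  have a := gs_u r h.ff g (Int.cast_nonpos (R := ℝ).1 (e ▸ neg_nonpos.2 (by
    rw [Pi.zero_apply] at this; positivity)))
  refine ⟨a, ?_⟩
  rw [ha_apply, a, e, g.lies.pb, g.lies.pb, Pi.add_apply, neg_div, mul_div_cancel_left₀ _ (b0 h).ne',
    show ∀ x y z : ℝ, x * z - -(x * y) = x * (y + z) from fun _ _ _ => by ring, max_self]
  ring

include nj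

theorem crit_ld (g : Gs (ss K u) w Q)
    (e : (w.ord (ss K u) : ℝ) = -(b * (w.ord (algebraMap K E Q.t) * Ψ Q))) :
    ld (d + 2) (ga u j b Γ) w = w.ord (algebraMap K E Q.t) * (ld (d + 1) Γ Q + Ψ Q) := by
  have a := (nj_s r h.ff nj).gs h.ff (r.ff h.ff) (ru_s r).tr g Γ
  rw [ld_s r nj, (crit h r g e).1, sub_add_cancel] at a
  rw [ld_ga, a, e, neg_div, mul_div_cancel_left₀ _ (b0 h).ne']
  ring

theorem low (w : Pl E) : pb (algebraMap K E) (ld (d + 1) Γ) w ≤ ld (d + 2) (ga u j b Γ) w ∧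
    (w.ord (ss K u) ≠ 0 → pb (algebraMap K E) (ld (d + 1) Γ) w < ld (d + 2) (ga u j b Γ) w) := by
  have a := nj.ge h.ff (r.ff h.ff) r.tr Γ w
  have c := (nj_s r h.ff nj).ge h.ff (r.ff h.ff) (ru_s r).tr Γ w
  have := b0 h
  rw [ld_s r nj] at c
  rw [ld_ga]
  rcases lt_trichotomy (w.ord (ss K u)) 0 with x | x | x
  · have : (w.ord (ss K u) : ℝ) / b < 0 := div_neg_of_neg_of_pos (by exact_mod_cast x) this
    exact ⟨by linarith, fun _ => by linarith⟩
  · exact ⟨by simpa [x] using a, fun y => (y x).elim⟩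
  · have y : w.ord u = 0 := by have := tri r w; omega
    have : (w.ord (ss K u) : ℝ) / b < w.ord (ss K u) := div_lt_self (by exact_mod_cast x) (b1 h)
    rw [y, Int.cast_zero] at c
    exact ⟨by linarith, fun _ => by linarith⟩

theorem lcp (z : ld (d + 2) (ga u j b Γ) w = 0) : w.ord (ss K u) = 0 ∧ 0 ≤ w.ord u ∧
    ((Trv (algebraMap K E) w ∧ w.ord u = 1) ∨ ∃ Q, Gs u w Q ∧ ld (d + 1) Γ Q = 0) := by
  have p := pb_nonneg (algebraMap K E) (fun Q => lc h Q : 0 ≤ ld (d + 1) Γ) w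
  obtain ⟨a, c⟩ := low h r nj w
  rw [z] at a c
  have o : w.ord (ss K u) = 0 := by_contra fun y => (c y).not_ge p
  have o' : 0 ≤ w.ord u := by have := tri r w; omega
  rw [ld_ga, o, Int.cast_zero, zero_div, sub_zero] at z
  refine ⟨o, o', (r.ok h.ff w).imp (fun t => ⟨t, ?_⟩) fun ⟨Q, l⟩ =>
    ⟨Q, nj.gs_of h.ff (r.ff h.ff) r.tr l (Γ := Γ) (by rw [z]; exact lt_add_of_le_of_pos p one_pos),
      ?_⟩⟩
  · rw [(nj.trv r h.ff t Γ).1, abs_of_nonneg (Int.cast_nonneg o'), sub_eq_zero] at z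
    exact_mod_cast z.symm
  · have := le_antisymm a p
    rw [l.pb] at this
    exact (mul_eq_zero.1 this).resolve_left (Int.cast_pos.2 l.e_pos).ne'

theorem prime (o : On (d + 1) (ha u b Ψ H₁) w) : ld (d + 2) (ga u j b Γ) w ≤ 1 ∧
    (ha u b Ψ H₁ w = 0 ∨ ld (d + 2) (ga u j b Γ) w = 0) ∧
    (H₁ = 0 → ha u b Ψ H₁ w = 0 ∨ b * ha u b Ψ H₁ w = 1) := by
  have hE := r.ff h.ff
  obtain ⟨sm, -, k⟩ := rm_spec h.ff (ru_s r) (by have := h.b2; omega : 0 < b) h.smp
    (h.r0.add h.r1) h.s1 h.r1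
  have := b0 h
  rw [← on_amp hE (sm.ampOn_congr (Λ' := ha u b Ψ H₁) (by
    rw [ha, add_sub_cancel_left]; exact Submodule.smul_mem _ _ (dv_mem_Prn u)))] at o
  rcases (k 0 .zero).2 w (by simpa [pb_zero] using o) with ⟨t, -⟩ | ⟨P, g, e, o'⟩
  · obtain ⟨a, c⟩ := nj.trv r h.ff t Γ
    have c' : |w.ord u| ≤ 1 := by exact_mod_cast c
    rw [ld_ga, a, ha_apply, t.pb, t.pb]
    rcases tri r w with ⟨x, y⟩ | ⟨x, y⟩ | ⟨x, y⟩
    · have y' : (w.ord u : ℝ) ≤ 0 := by exact_mod_cast y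
      have : (w.ord u : ℝ) ≤ w.ord u / b := by
        rw [le_div_iff₀ this]; nlinarith [b1 h]
      have e : max 0 (0 - (w.ord u : ℝ) / b) + w.ord u / b = 0 := by
        rw [max_eq_right (by rw [zero_sub, neg_nonneg]; exact div_nonpos_of_nonpos_of_nonneg y' (b0 h).le)]
        ring
      rw [x, e, abs_of_nonpos y']
      exact ⟨by linarith, .inl rfl, fun _ => .inl rfl⟩
    · have : (0 : ℝ) < w.ord (ss K u) / b := by positivity
      rw [y, max_eq_left (by linarith)]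
      exact ⟨by simpa using this.le, .inl (by simp), fun _ => .inl (by simp)⟩
    · have y' : w.ord u = 1 := by rw [abs_le] at c'; omega
      rw [x, y']
      exact ⟨by simp, .inr (by simp), fun _ => .inr (by simp [this.ne'])⟩
  rw [zero_add, ← on_amp h.ff ((AmpOn.refl h.smp).add_smp h.s1 h.des)] at o'
  have e' : (w.ord (ss K u) : ℝ) = -(b * (w.ord (algebraMap K E P.t) * Ψ P)) := by
    rw [e, Pi.add_apply]; ring
  obtain ⟨ρ, ρ0, ⟨z, hz⟩, le⟩ := h.idx P o'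
  obtain ⟨ρ', ρ1, e2⟩ := g.e_le (ru_s r) h.ff ρ0 (x := -(b * Ψ P)) (z := -z) (by rw [e']; ring)
    (by rw [mul_neg, hz, Int.cast_neg])
  rw [crit_ld h r nj g e', (crit h r g e').2]
  refine ⟨?_, (h.sup P o').imp (fun y => by rw [y, mul_zero]) fun y => by rw [y, mul_zero],
    fun y => .inl (by simp [y])⟩
  have a := mul_nonneg (Int.cast_pos (R := ℝ).2 g.lies.e_pos).le (add_nonneg (lc h P) (h.p0 P))
  have : (1 : ℝ) ≤ ρ' := by exact_mod_cast ρ1
  rw [e2, mul_assoc] at le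
  nlinarith

theorem inn : In (d + 1) (n * b) (ga u j b Γ) (ha u b Ψ H₁) := by
  have hE := r.ff h.ff
  have ok := r.ok h.ff
  obtain ⟨sm, q, k⟩ := rm_spec h.ff (ru_s r) (by have := h.b2; omega : 0 < b) h.smp
    (h.r0.add h.r1) h.s1 h.r1
  have pr := Submodule.smul_mem _ (b : ℝ)⁻¹ (dv_mem_Prn u)
  have := b0 h
  refine ⟨hE, mul_pos h.n0 (by have := h.b2; omega), add_mem (add_mem (ok.prn h.prn) (dv_mem_Prn _))
    (Submodule.smul_mem _ _ (dv_mem_Prn _)), fun w => ?_, sm.add_prn pr, ?_,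
    q.add (by simpa using (carQ_dv u).qsmul (b : ℚ)⁻¹), ha_nn h r,
    fun w o => add_le_iff_nonpos_left.1 (prime h r nj o).1, fun w o => (prime h r nj o).2.1,
    fun w z => ?_⟩
  · obtain ⟨z, e⟩ : ∃ z : ℤ, n * pb (algebraMap K E) Γ w = z := by
      rcases ok w with t | ⟨Q, l⟩
      · exact ⟨0, by simp [t.pb]⟩
      obtain ⟨z, e⟩ := h.int Q
      obtain ⟨y, e'⟩ := cn_int (n := d + 1) Q
      refine ⟨w.ord (algebraMap K E Q.t) * (n * y + n - z), ?_⟩
      simp only [ld, dsc, Pi.sub_apply, e'] at e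
      rw [l.pb]
      push_cast
      rw [← e]
      ring
    obtain ⟨y, e'⟩ := cn_int (n := d + 1 + 1) w
    have e2 : ((n * b : ℕ) : ℝ) * ld (d + 1 + 1) (ga u j b Γ) w =
        (n * b * (y - w.ord j + 1) - b * z - n * w.ord (ss K u) : ℤ) := by
      rw [ld_ga]
      simp only [ld, dsc, Rul.up, Pi.sub_apply, Pi.add_apply, e', dv_apply]
      push_cast
      rw [← e]
      field_simp
      ring
    obtain ⟨x, hx⟩ := Int.eq_ofNat_of_zero_le (Int.cast_nonneg_iff (R := ℝ).1 (e2 ▸ mul_nonneg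
      (Nat.cast_nonneg _) ((pb_nonneg _ (fun Q => lc h Q) w).trans (low h r nj w).1)))
    exact ⟨x, by rw [e2, hx, Int.cast_natCast]⟩
  · have := (k 0 .zero).1 (by simpa using h.big.add_eff h.s1.eff)
    rw [pb_zero, zero_add] at this
    exact (sm.ampOn_congr (by rwa [ha, add_sub_cancel_left])).big_iff.1 this
  · obtain ⟨o, o', ⟨t, e⟩ | ⟨Q, g, e⟩⟩ := lcp h r nj z <;> rw [ha_zero h r o]
    · rw [t.pb, e]; positivity
    · rw [g.lies.pb]
      exact add_pos_of_pos_of_nonneg (mul_pos (Int.cast_pos.2 g.lies.e_pos) (h.cen Q e).1)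
        (by positivity)

omit nj in
theorem sec (l0 : 0 ≤ l) (hf : Sec (l • ha u b Ψ H₁) f) : ∃ c : ℤ →₀ K, f = lp u c ∧
    ∀ i ∈ c.support, i ≤ 0 ∧ -l ≤ b * i ∧ Sec (l • (Ψ + H₁)) (c i) := by
  have hE := r.ff h.ff
  have := b0 h
  rcases hf with rfl | hf
  · exact ⟨0, by simp [lp], by simp⟩
  have hw : ∀ w, 0 ≤ w.ord f + l * ha u b Ψ H₁ w := hf
  obtain ⟨c, rfl⟩ := r.lau h.ff (f := f) fun w t o => mem_ord (by
    have a := hw w
    have c : (0 : ℝ) ≤ w.ord (ss K u) / b := by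
      have : 0 ≤ w.ord (ss K u) := by have := tri r w; omega
      positivity
    rw [ha_apply, t.pb, t.pb, o, max_eq_left (by linarith)] at a
    simpa using a)
  have key : ∀ i, c i ≠ 0 → ∀ (Q : Pl K) (k : ℤ), 0 ≤ Q.ord (c i) + (i * k : ℝ) +
      l * (max ((Ψ + H₁) Q) (H₁ Q - (min k 0 : ℤ) / b) + k / b) := fun i z Q k => by
    obtain ⟨w, g, e⟩ := exists_gs hE r.tr Q k one_pos
    have e1 := Int.eq_one_of_dvd_one g.lies.e_pos.le (g.dvd r h.ff e)
    have e2 : w.ord u = k := by simpa [e1] using e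
    have a := (g.le hE r.ne z).2
    have c := hw w
    rw [ha_apply, g.lies.pb, g.lies.pb, gs_s r h.ff g, e1, e2] at c
    rw [e1, e2] at a
    simp only [Int.cast_one, one_mul] at a c
    linarith
  refine ⟨c, rfl, fun i z => ?_⟩
  replace z := Finsupp.mem_support_iff.1 z
  obtain ⟨Q⟩ := ne_pl h.ff
  refine ⟨Int.cast_nonpos (R := ℝ).1 (slope_le (y := Q.ord (c i) + l * (Ψ + H₁) Q) fun k _ => ?_),
    ?_, .inr fun Q => ?_⟩
  · have a := key i z Q (-k)
    have p : H₁ Q ≤ (Ψ + H₁) Q := le_add_of_nonneg_left (h.p0 Q)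
    have : (0 : ℝ) ≤ k / b := by positivity
    rw [min_eq_left (by omega)] at a
    push_cast at a
    have := mul_le_mul_of_nonneg_left (show max ((Ψ + H₁) Q) (H₁ Q - -(k : ℝ) / b) + -(k : ℝ) / b ≤
      (Ψ + H₁) Q by
        rw [neg_div, ← le_sub_iff_add_le]; exact max_le (by linarith) (by linarith)) l0
    linarith
  · have := slope_le (x := -(i + l / b)) (y := Q.ord (c i) + l * (Ψ + H₁) Q) fun k _ => by
      have a := key i z Q k
      rw [min_eq_right (by omega), Int.cast_zero, zero_div, sub_zero,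
        max_eq_left (show H₁ Q ≤ (Ψ + H₁) Q from le_add_of_nonneg_left (h.p0 Q))] at a
      push_cast at a
      rw [mul_add, ← mul_div_assoc] at a
      rw [mul_neg, mul_add, ← mul_div_assoc, mul_comm (k : ℝ) l]
      linarith
    rw [neg_nonpos, add_div' _ _ _ (b0 h).ne', le_div_iff₀ (b0 h)] at this
    linarith
  · have a := key i z Q 0
    rw [min_self, Int.cast_zero, zero_div, sub_zero,
      max_eq_left (show H₁ Q ≤ (Ψ + H₁) Q from le_add_of_nonneg_left (h.p0 Q))] at a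
    simpa [dv_apply, mul_add] using a

theorem cen : Cen (max C 1) (ld (d + 2) (ga u j b Γ)) (ha u b Ψ H₁) := fun w z => by
  have i := inn h r nj
  have := b0 h
  refine ⟨i.pos w z, fun G => rep_le i.ff i.rat fun m f f0 hf => ?_⟩
  obtain ⟨c, rfl, k⟩ := sec h r m.cast_nonneg hf
  have c0 : c ≠ 0 := fun y => f0 (by simp [y, lp])
  obtain ⟨o, o', ⟨t, e⟩ | ⟨Q, g, e⟩⟩ := lcp h r nj z
  · obtain ⟨x, y, e'⟩ := trv_min t r.ne (by omega) c0
    have : (x : ℝ) ≤ 0 := by exact_mod_cast (k x (Finsupp.mem_support_iff.2 y)).1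
    have := mul_le_mul_of_nonneg_left (le_mul_of_one_le_left (i.nn w) (le_max_right C 1))
      m.cast_nonneg
    rw [e', e]
    push_cast
    linarith
  obtain ⟨x, y⟩ := Finsupp.support_nonempty_iff.2 c0
  obtain ⟨k1, -, k2⟩ := k x y
  replace y := Finsupp.mem_support_iff.1 y
  have a := (g.le i.ff r.ne y).2
  have e0 : (0 : ℝ) < w.ord (algebraMap K E Q.t) := Int.cast_pos.2 g.lies.e_pos
  have p := (h.cen Q e).1.le
  have a2 := mul_le_mul_of_nonneg_left ((cen_smul h.cen (add_nonneg h.p0 h.p1) e m.cast_nonneg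
    (k2.rep y)).trans (mul_le_mul_of_nonneg_left (mul_le_mul_of_nonneg_right (le_max_left C 1) p)
      m.cast_nonneg)) e0.le
  have a3 : (x : ℝ) * w.ord u ≤ 0 := by exact_mod_cast mul_nonpos_of_nonpos_of_nonneg k1 o'
  have a4 := mul_le_mul_of_nonneg_left (le_mul_of_one_le_left
    (show (0 : ℝ) ≤ w.ord u / b by positivity) (le_max_right C 1)) m.cast_nonneg
  rw [ha_zero h r o, g.lies.pb]
  rw [Pi.add_apply, dv_apply, Pi.smul_apply, smul_eq_mul] at a2
  linarith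

omit nj in
theorem sec_up {f : K} {k k' : ℕ} (hf : Sec (l • (Ψ + H₁)) f) (a : l ≤ b * k) (c : k ≤ k') :
    Sec (((b : ℝ) * k') • ha u b Ψ H₁) (algebraMap K E f / u ^ k) := by
  have := b0 h
  by_cases f0 : f = 0
  · exact .inl (by simp [f0])
  refine Sec.mono (β := ((b : ℝ) * k) • ha u b Ψ H₁) (.inr fun w => ?_)
    (smul_le_smul_of_nonneg_right (by gcongr) (ha_nn h r))
  have e := ((r.ok h.ff).sec hf).resolve_left ((map_ne_zero _).2 f0) w
  have p := p2 h w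
  have e2 := mul_le_mul a (le_max_left _ (pb (algebraMap K E) H₁ w - w.ord (ss K u) / b))
    (p.1.trans p.2) (by positivity)
  rw [pb_smul] at e
  simp only [Pi.add_apply, Pi.smul_apply, smul_eq_mul, dv_apply, Pi.zero_apply] at e ⊢
  rw [ha_apply, Pl.ord_div _ ((map_ne_zero _).2 f0) (pow_ne_zero k r.ne), Pl.ord_pow, mul_add,
    show (b : ℝ) * k * (w.ord u / b) = k * w.ord u by field_simp]
  push_cast
  linarith

theorem rep {G : BD K} (z : H₁ = 0) (hG : P287D.Rep Ψ G) : ∃ G', P287D.Rep (ha u b Ψ H₁) G' ∧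
    ∀ Q, ∃ (w : Pl E) (e : ℝ), 0 < e ∧ e * G Q ≤ G' w ∧ ha u b Ψ H₁ w = 0 ∧
      ld (d + 2) (ga u j b Γ) w = e * (ld (d + 1) Γ Q + Ψ Q) := by
  have p : 0 ≤ rm (ss K u) b (Ψ + H₁) H₁ - pb (algebraMap K E) (Ψ + H₁) := sub_nonneg.2 le_sup_left
  refine ⟨pb (algebraMap K E) G + (rm (ss K u) b (Ψ + H₁) H₁ - pb (algebraMap K E) (Ψ + H₁)),
    ⟨add_nonneg (pb_nonneg _ hG.1) p, ?_⟩, fun Q => ?_⟩
  · convert sub_mem ((r.ok h.ff).prn hG.2) (Submodule.smul_mem _ (b : ℝ)⁻¹ (dv_mem_Prn u)) using 1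
    rw [ha, z, add_zero, pb_sub]
    abel
  obtain ⟨x, hx⟩ := h.r0.rat Q
  obtain ⟨w, g, e⟩ := exists_gs' (r.ff h.ff) (ru_s r).tr Q (-(b * x))
  have e' : (w.ord (ss K u) : ℝ) = -(b * (w.ord (algebraMap K E Q.t) * Ψ Q)) := by
    rw [e, hx]; push_cast; ring
  exact ⟨w, _, Int.cast_pos.2 g.lies.e_pos, by
    rw [Pi.add_apply, g.lies.pb]; exact le_add_of_nonneg_right (p w), by
    rw [(crit h r g e').2, z, Pi.zero_apply, mul_zero], crit_ld h r nj g e'⟩

end Vale.Agent.P283B.Rul.Su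

namespace Vale.Agent.P283B

open Rul Rul.Su

/-- **SUSP** -/
theorem Sp.susp : Sp.SUSP := fun K _ _ d n b C Γ Ψ H₁ h => by
  have r : Ru K (RatFunc.X - 1 : RatFunc K) := by
    simpa [sub_eq_add_neg] using Ru.add (K := K) ⟨RatFunc.transcendental_X, RatFunc.adjoin_X⟩ (-1)
  obtain ⟨j, nj⟩ := exists_nj h.ff (r.ff h.ff) r.tr
  exact ⟨_, _, inn h r nj, cen h r nj, fun l f => sec h r, fun l f k k' => sec_up h r,
    fun z => ⟨fun w o => (prime h r nj o).2.2 z, fun G => rep h r nj z⟩⟩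

end Vale.Agent.P283B
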