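import Vale.Agent.P283B.SP.UpSt
import Vale.Agent.P283B.LL.Cyl
import Vale.Agent.P283B.VOL.Fre
import Vale.Agent.P287D.Ku.Ex

/-!
# P283B, block SP: uniform generation at a monomial place
-/

set_option linter.unusedVariables false
set_option linter.unusedSectionVars false

open Set MvPolynomial
open Vale.Agent.P297Z

noncomputable section

namespace Vale.Agent.P283B.Sp

open P287D Wp Cb Rul

namespace Ug

variable {K F ι : Type} [Field K] [Field F] [Algebra ℂ K] [Algebra ℂ F] [Algebra K F]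
  [IsScalarTower ℂ K F] [Fintype ι] {n m : ℕ} {s : F} {W : Pl F} {E : Pl K}

theorem exists_on (hK : FF K (n + 1)) {Λ : BD K} (h : Smp Λ) (b : Big Λ) : ∃ P, On n Λ P := by
  by_contra! k
  obtain ⟨x, hx, -⟩ := id hK
  obtain ⟨P, -, p⟩ := exists_pole (L := ⊥) hK (f := x 0) fun a => hx.transcendental 0
    (a.ringHom_of_comp_eq (IntermediateField.botEquiv ℂ K : _ →+* ℂ) (RingHom.id K)
      (IntermediateField.botEquiv ℂ K).injective (RingHom.ext fun a => by
        obtain ⟨c, rfl⟩ := (IntermediateField.botEquiv ℂ K).symm.surjective a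
        simp))
  have := Pr.neg res' hK (c := 0) h b (dv_mem_Car (x 0)⁻¹) (by
    simpa using (Smp.zero.congr (by simpa using dv_mem_Prn (x 0)⁻¹)).nef) (fun Q q => (k Q q).elim) P
  rw [dv_apply, Pl.ord_inv] at this
  exact p (mem_ord (by simpa using this))

theorem ord_term {R : Pl K} {w : Pl F} (l : Lies (algebraMap K F) w R) (s0 : s ≠ 0) {a : K}
    (a0 : a ≠ 0) (k : ℤ) : w.ord (algebraMap K F a * s ^ k) =
      w.ord (algebraMap K F R.t) * R.ord a + k * w.ord s := by
  rw [Pl.ord_mul _ ((map_ne_zero _).2 a0) (zpow_ne_zero _ s0), Pl.ord_zpow, l.ord]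

/-- the residues of the normalised coordinates are independent -/
theorem ind (hF : FF F m) (s0 : s ≠ 0) (g : Gs s W E) (e : W.ord (algebraMap K F E.t) = 1)
    (o : W.ord s = -1) {y : ι → K} (h : Lz.Ind E y) (y0 : ∀ i, y i ≠ 0) :
    AlgebraicIndependent ℂ fun i => W.rd (algebraMap K F (y i) * s ^ E.ord (y i)) := by
  classical
  have mem : ∀ i, algebraMap K F (y i) * s ^ E.ord (y i) ∈ W.ring := fun i =>
    mem_ord (by rw [ord_term g.lies s0 (y0 i), e, o]; omega)
  refine algebraicIndependent_iff.2 fun p hp => by_contra fun p0 => ?_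
  obtain ⟨d, hd⟩ := support_nonempty.2 p0
  let wt : (ι →₀ ℕ) → ℤ := fun d => ∑ i, d i * E.ord (y i)
  let c : ℤ →₀ K := ∑ d ∈ p.support, Finsupp.single (wt d) (aeval y (monomial d (p.coeff d)))
  have q : aeval (fun i => algebraMap K F (y i) * s ^ E.ord (y i)) p = Rul.lp s c := by
    rw [Rul.lp, ← Finsupp.sum_finsetSum_index (by simp) (by simp [add_mul])]
    conv_lhs => rw [p.as_sum, map_sum]
    refine Finset.sum_congr rfl fun d _ => ?_
    rw [Finsupp.sum_single_index (by simp), aeval_monomial, aeval_monomial, map_mul, lin, mul_assoc,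
      Finsupp.prod_fintype _ _ fun _ => pow_zero _, Finsupp.prod_fintype _ _ fun _ => pow_zero _,
      map_prod]
    congr 1
    simp only [wt]
    induction (Finset.univ : Finset ι) using Finset.induction_on with
    | empty => simp
    | insert a t ha ih =>
      rw [Finset.sum_insert ha, Finset.prod_insert ha, Finset.prod_insert ha, ih, zpow_add₀ s0,
        mul_pow, map_pow, ← zpow_natCast (s ^ _), ← zpow_mul, mul_comm (E.ord (y a))]
      ring
  obtain ⟨u, v⟩ := h (∑ x ∈ p.support with wt x = wt d, monomial x (p.coeff x)) d (by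
    rw [mem_support_iff, coeff_sum, Finset.sum_eq_single_of_mem d (by simpa using hd)
      fun x _ ne => by rw [coeff_monomial, if_neg ne]]
    simpa using hd)
  have e1 : aeval y (∑ x ∈ p.support with wt x = wt d, monomial x (p.coeff x)) = c (wt d) := by
    rw [map_sum, Finset.sum_filter, Finsupp.finsetSum_apply]
    exact Finset.sum_congr rfl fun x _ => Finsupp.single_apply.symm
  rw [e1] at u v
  rw [Finsupp.sum_fintype _ _ fun _ => by simp] at v
  obtain ⟨l0, -, -, -, le⟩ := g.min hF s0 (p := c) fun z => u (by rw [z]; rfl)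
  have := le _ u
  rw [ord_term g.lies s0 u, e, o] at this
  have m := (rd_eq_zero (adj_mem (forall_mem_range.2 mem) (by
    rw [Algebra.adjoin_range_eq_range_aeval]; exact ⟨p, rfl⟩))).1 ((rd_aeval mem p).trans hp)
  rw [q] at m
  change _ ≤ wt d at v
  exact (mx_iff.1 m).elim l0 (by omega)

end Ug

open Ug

theorem ugg : UGG := by
  classical
  intro n K _ _ hK Θ b E y h1 h2 b0 hi hy
  obtain ⟨F, _, _, _, _, s, ru⟩ := exists_ru K
  have hF := ru.ff hK
  have ok := ru.ok hK
  have s0 := ru.ne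
  obtain ⟨j, hj⟩ := exists_nj hK hF ru.tr
  obtain ⟨W, g, o⟩ := exists_gs hF ru.tr E (-1) one_pos
  have e : W.ord (algebraMap K F E.t) = 1 :=
    Int.eq_one_of_dvd_one g.lies.e_pos.le (by exact_mod_cast g.dvd ru hK o)
  rw [e, Nat.cast_one, one_mul, mul_one] at o
  let u : Finset F := insert 1 (b.image fun h => algebraMap K F h * s ^ E.ord h)
  have u1 : (1 : F) ∈ u := Finset.mem_insert_self _ _
  have u2 : ∀ h ∈ b, algebraMap K F h * s ^ E.ord h ∈ u := fun h a =>
    Finset.mem_insert_of_mem (Finset.mem_image_of_mem _ a)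
  have up' : ∀ (w : Pl F) (m : ℝ), 0 ≤ m →
      (∀ h ∈ b, -m ≤ w.ord (algebraMap K F h * s ^ E.ord h)) → mx u w ≤ m := fun w m m0 k => by
    obtain ⟨f, hf, -, q⟩ := w.exists_mz ⟨1, u1, one_ne_zero⟩
    rw [mx_apply, q]
    rcases Finset.mem_insert.1 hf with rfl | hf
    · simpa using m0
    · obtain ⟨h, a, rfl⟩ := Finset.mem_image.1 hf
      exact Int.cast_neg (R := ℝ) _ ▸ neg_le.1 (k h a)
  have oW : ∀ {h : K}, h ≠ 0 → W.ord (algebraMap K F h * s ^ E.ord h) = 0 := fun h => by
    rw [ord_term g.lies s0 h, e, o]; ring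
  have uW : mx u W = 0 := le_antisymm (up' W 0 le_rfl fun h a => by simp [oW (b0 h a)])
    (mx_nonneg u1 W)
  have zW : W.mz u = 0 := by exact_mod_cast (mx_apply u W).symm.trans uW
  have sy1 : ∀ w : Pl F, mx (sy s⁻¹ ({1} : Finset K)) w = max 0 (w.ord s : ℝ) := fun w => by
    rw [mx_sy hF (.single one_ne_zero) (inv_ne_zero s0), mx_single, dv_one, neg_zero, pb_zero, dv_inv]
    simp [dv_apply]
  let N := pb (algebraMap K F) (-Θ) + mx (sy s⁻¹ ({1} : Finset K))
  let G := up j Θ - ld (n + 1) Θ E • dv s - (n + 2 : ℝ) • mx u - mx (sy s⁻¹ ({1} : Finset K))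
  have lG : ∀ w, dsc (n + 2) G w + 1 = ld (n + 2) (up j Θ) w + ld (n + 1) Θ E * w.ord s +
      (n + 2) * mx u w + max 0 (w.ord s : ℝ) := fun w => by
    simp only [G, ld, dsc, Pi.sub_apply, Pi.smul_apply, smul_eq_mul, dv_apply, sy1]
    ring
  have nN : Nef N := (ok.nef h1.nef).add (nef_mx _)
  have pr : -G - (N + (n + 2 : ℝ) • mx u) ∈ Prn F := by
    rw [show -G - (N + (n + 2 : ℝ) • mx u) = ld (n + 1) Θ E • dv s - dv j by
      simp only [G, N, up, pb_neg]; abel]
    exact sub_mem ((Prn F).smul_mem _ (dv_mem_Prn _)) (dv_mem_Prn _)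
  have nu : Nef ((n + 2 : ℝ) • mx u) := (nef_mx u).smul (by positivity)
  have nG : Nef (-G) := (nN.add nu).congr pr
  have bG : Big (-G) := ((big_sy hF (fun x => (IntermediateField.adjoin_le_iff
    (T := (Gm.Cl (range (algebraMap K F) ∪ {s⁻¹})).toSubfield.toIntermediateField fun a =>
      Gm.sub_Cl (.inl ⟨a, rfl⟩))).2 (singleton_subset_iff.2 (Gm.sub_Cl (.inr rfl)))
        (ru.inv.gen ▸ IntermediateField.mem_top)) (inv_ne_zero s0) h1 (.single one_ne_zero) (by
      rwa [mx_single, dv_one, neg_zero, add_zero])).add_nef nu).congr pr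
  have hκ := Gm.ff_κ W hF
  have y0 : ∀ i, y i ≠ 0 := fun i => by
    simpa using (hi (X i) (Finsupp.single i 1) (by simp)).1
  have bu : Big (mx (W.rs u)) := big_mx fun x => mem_algebraicClosure_iff.1 (Gm.cl_le
    (T := {a | ∃ f ∈ W.rs u, ∃ g ∈ W.rs u, a = f / g}) (by
      rintro _ ⟨i, rfl⟩
      obtain ⟨f, hf, h, hh, q⟩ := hy i
      refine Gm.sub_Cl ⟨_, Finset.mem_image_of_mem _ (u2 f hf), _,
        Finset.mem_image_of_mem _ (u2 h hh), ?_⟩
      have h0 := (map_ne_zero (algebraMap K F)).2 (b0 h hh)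
      rw [zW, zpow_zero, mul_one, mul_one, eq_div_iff (mt (rd_eq_zero (mem_ord
        (oW (b0 h hh)).ge)).1 fun m => (mx_iff.1 m).elim (mul_ne_zero h0 (zpow_ne_zero _ s0))
          (oW (b0 h hh)).not_gt), ← rd_mul (mem_ord (oW (y0 i)).ge) (mem_ord (oW (b0 h hh)).ge), q,
        Pl.ord_div _ (b0 f hf) (b0 h hh), map_div₀, zpow_sub₀ s0]
      congr 1
      field_simp) (Gm.cl_basis hκ (ind hF s0 g e o hi y0) (by simp) x))
  obtain ⟨D, hD⟩ := exists_on hκ (smp_mx _) bu
  obtain ⟨v₀, -, ad⟩ := Lcb.adj_dv hF W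
  obtain ⟨v, v0, av, -⟩ := Vo.fre n _ hκ (adj (n + 1) W G) (W.rs u) D bu
    ((P287D.res_nef hF W nN).congr (by
      have := P287D.res_prn hF W pr
      rw [P287D.res_sub hF W nG.car (nN.add nu).car, P287D.res_neg hF W (neg_mem_iff.1 nG.car),
        P287D.res_add_smul hF W nN.car (mx_mem_Car u), P287D.res_mx hF] at this
      rw [ad G (neg_mem_iff.1 nG.car)]
      convert sub_mem this (dv_mem_Prn v₀) using 1
      abel)) hD
  obtain ⟨f, m, r, a⟩ := Ku.uext _ F hF W G v nG bG (by
    have := lG W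
    rw [hj.gs hK hF ru.tr g, e, o, uW] at this
    norm_num at this
    linarith) av
  have f0 : f ≠ 0 := fun z => v0 (by rw [← r, z, Gm.rd_zero])
  obtain ⟨c, rfl⟩ := ru.lau hK (f := f) fun w t z => by
    have := (a w fun q => g.lies.not_trv (q ▸ t)).resolve_left f0
    have k := lG w
    rw [(hj.trv ru hK t Θ).1, z, le_antisymm (up' w 0 le_rfl fun h a => by
      rw [Pl.ord_mul _ ((map_ne_zero _).2 (b0 h a)) (zpow_ne_zero _ s0), Pl.ord_zpow, z, t.ord]
      simp) (mx_nonneg u1 w)] at k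
    norm_num at k
    rw [k, zero_add] at this
    have : (-1 : ℤ) < w.ord f := by exact_mod_cast this
    exact mem_ord (by omega)
  have c0 : c ≠ 0 := fun z => f0 (by simp [z, Rul.lp])
  obtain ⟨-, k, k0, q, -⟩ := g.min hF s0 c0
  rw [ord_zero_of m (r ▸ v0), ord_term g.lies s0 k0, e, o] at q
  refine ⟨c k, k0, fun R z m ne z0 m0 hm => ?_⟩
  obtain ⟨w, g', o'⟩ := exists_gs hF ru.tr R (-z.num) z.den_pos
  have e0 : (0 : ℝ) < w.ord (algebraMap K F R.t) := Int.cast_pos.2 g'.lies.e_pos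
  have d0 : (0 : ℝ) < z.den := Nat.cast_pos.2 z.den_pos
  have os : (w.ord s : ℝ) = -(w.ord (algebraMap K F R.t) * z) := by
    have := congrArg (Int.cast : ℤ → ℝ) o'
    push_cast at this
    rw [Rat.cast_def]
    field_simp
    linarith
  have := (a w fun q => by
    subst q
    obtain rfl := g.lies.uniq g'.lies
    rw [o, e] at os
    exact ne rfl (by exact_mod_cast (by push_cast at os; linarith : (z : ℝ) = 1))).resolve_left f0
  have k1 := lG w
  have z1 : (0 : ℝ) ≤ z := by exact_mod_cast z0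
  rw [hj.gs hK hF ru.tr g', max_eq_left (by rw [os]; exact neg_nonpos.2 (by positivity)), os] at k1
  have k2 := mul_le_mul_of_nonneg_left (up' w (w.ord (algebraMap K F R.t) * m) (by positivity)
    fun h a => by
      rw [ord_term g'.lies s0 (b0 h a)]
      push_cast
      rw [os]
      linarith [mul_le_mul_of_nonneg_left (hm h a) e0.le]) (by positivity : (0 : ℝ) ≤ n + 2)
  obtain ⟨-, -, -, -, le⟩ := g'.min hF s0 c0
  have k3 := Int.cast_le (R := ℝ).2 (le k k0)
  rw [ord_term g'.lies s0 k0] at k3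
  push_cast at k3
  rw [os] at k3
  rw [show E.ord (c k) = k by omega]
  refine lt_of_mul_lt_mul_left ?_ e0.le
  linarith

end Vale.Agent.P283B.Sp
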