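import Vale.Agent.P283B.All
import Vale.Agent.P283B.MK.All
import Vale.Agent.P283B.LL.Frm
import Vale.Agent.P283B.SP.Als
import Vale.Agent.P283B.SP.Cone
import Vale.Agent.P283B.SP.Dat
import Vale.Agent.P283B.SP.G2
import Vale.Agent.P283B.SP.G4
import Vale.Agent.P283B.SP.G5
import Vale.Agent.P283B.SP.Ko
import Vale.Agent.P283B.SP.Lift
import Vale.Agent.P283B.SP.Mk1
import Vale.Agent.P283B.SP.Sus
import Vale.Agent.P283B.SP.Ugg

/-!
# P283B, block SP: a central place with its hull and a chart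
-/

namespace Vale.Agent.P283B.Sp

open P287D

theorem cp_jmp (jm : ∀ n, Lj.JMP n) (n : ℕ) : Lz.CP (n + 1) :=
  have h := g45_of susp cone sals1 sals smk1 M1.mk2 ko lift sg4 (sg5_of Api.mod res')
    (fun d => (packAll d).lc) Mk.mink
  cp_of data' (sg2 ugg jm Lj.frm lift) h.1 h.2 n

end Vale.Agent.P283B.Sp
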