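import Vale.Agent.P283B.SP.St
import Vale.Agent.P283B.LL.Rees

/-!
# P283B, block SP: the data at an lc place
-/

noncomputable section

namespace Vale.Agent.P283B.Sp

open P287D Lcb Lq

theorem data : DATA := fun K _ _ n q N Γ s R₀ g E gr lp => by
  have hK := gr.ff
  have N0 : (0 : ℝ) < N := Nat.cast_pos.2 gr.N0
  have c := (clo_of hK gr.cl lp.pt).1
  have v : ∀ P, lam N g P = (N : ℝ)⁻¹ * P.ord g := fun _ => rfl
  have b : ∀ P, On (n + 1) (mx s) P → ld (n + 2) Γ P ≤ 1 := fun P o =>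
    add_le_of_nonpos_left (gr.rel.pr.bdy P o)
  obtain ⟨Y, Z, h⟩ := exists_at (c := 0) (Θ := lam N g) hK gr.rel.ft
    (.of_prn (by simpa [lam] using Submodule.smul_mem _ _ (dv_mem_Prn g)))
    (fun P u => by
      have := (inv_mul_le_iff₀ N0).2 (gr.lcc.2 P u)
      rw [ld, dsc, Pi.sub_apply, v]
      linarith)
    (fun P o u => by
      have := (le_inv_mul_iff₀ N0).2 (gr.lcc.1.2 P u)
      have := b P o
      rw [ld, dsc, Pi.sub_apply] at this ⊢
      rw [v]
      linarith) lp.ov lp.lc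
  have o1 := h.one hK
  have e : rE E Z (dv E.t) = res E (-Z) := by
    rw [rE, res_sub_smul hK E (dv_mem_Car _) h.car, res_dv_t hK, res_neg hK E h.car, dv_apply,
      E.ord_t]
    simp
  obtain ⟨σ, A, a1, -, a2⟩ := h.hl hK
  refine ⟨Z, gr, lp, ⟨σ, A, a1, fun P _ => by simp [← a2]⟩, o1, ⟨0, by simpa using h.neg.nef⟩,
    h.rat, fun _ => h.nn hK, fun D d k _ => h.hull hK (h.des.trans d) fun P _ => k P,
    fun _ => res_prn' hK c,
    fun β a z k => res_zero hK E ▸ res_le hK c h.ov (zero_mem _) a k z.symm, e ▸ h.rsmp hK,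
    e ▸ h.rbig hK, fun Q hQ k => ?_⟩
  obtain ⟨r, r0, r1, r2⟩ := h.idx hK c ((h.des.trans gr.rel.pr.des).add (h.dsz.smul _))
    (by rw [ld_add, Pi.smul_apply, o1]; simp) (fun P o u => by
      rw [ld_add, Pi.smul_apply, smul_eq_mul]
      by_cases x : P = E
      · simp [x, o1]
      · simpa [h.zero o u x] using b P ((h.prm P o u).resolve_right x)) (e ▸ hQ) k
  refine ⟨r, r0, r1, fun β d i => r2 _ ((h.des.trans d).sub (h.dsz.smul _)) fun P o u => ?_⟩
  by_cases x : P = E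
  · exact ⟨0, by simp [x, o1]⟩
  · simpa [h.zero o u x] using i P ((h.prm P o u).resolve_right x) u

end Vale.Agent.P283B.Sp
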