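import Vale.Agent.P283B.SP.St
import Vale.Agent.P283B.LC.Loc
import Vale.Agent.P287D.Va.Des

/-!
# P283B, block SP: Minkowski for the graded ring
-/

open Set

noncomputable section

namespace Vale.Agent.P283B.Sp

open P287D Mk

variable {K : Type} [Field K] [Algebra ℂ K] {n m b : ℕ} {C a l l' : ℝ} {L p D : BD K} {j : ℤ}
  {u : K}

theorem rk_le {S T : Set K} (h : S ⊆ Algebra.adjoin ℂ T) : rk S ≤ rk T := by
  rw [rk, rk, ← Matroid.eRk_closure_eq _ T, AlgebraicIndependent.matroid_closure_eq]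
  exact Matroid.eRk_mono _ fun x hx =>
    isAlgebraic_algebraMap (⟨x, h hx⟩ : Algebra.adjoin ℂ T)

theorem rk_empty : rk (∅ : Set K) = 0 := Matroid.eRk_empty _

omit [Algebra ℂ K] in
theorem zpow_ind : LinearIndependent K fun j : ℤ => (RatFunc.X : RatFunc K) ^ j := by
  have h : LinearIndependent K fun k : ℕ => (RatFunc.X : RatFunc K) ^ k := by
    have := (Polynomial.basisMonomials K).linearIndependent.map'
      (IsScalarTower.toAlgHom K (Polynomial K) (RatFunc K)).toLinearMap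
      (LinearMap.ker_eq_bot.2 (RatFunc.algebraMap_injective K))
    refine (congrArg (fun v => LinearIndependent K v) (funext fun k => ?_)).mp this
    simp [← Polynomial.X_pow_eq_monomial]
  refine linearIndependent_iff'.2 fun s c e => ?_
  obtain ⟨M, hM⟩ := s.bddBelow
  have k := linearIndependent_iff'.1 (h.comp (fun i : s => (i.1 - M).toNat) fun x y z =>
    Subtype.ext (by have := hM x.2; have := hM y.2; simp only at z; omega)) Finset.univ
    (fun i => c i) (by
      rw [← mul_left_inj' (zpow_ne_zero M RatFunc.X_ne_zero), zero_mul, Finset.sum_mul, ← e,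
        ← s.sum_coe_sort]
      refine Finset.sum_congr rfl fun i _ => ?_
      rw [Function.comp_apply, smul_mul_assoc, ← zpow_natCast, ← zpow_add₀ RatFunc.X_ne_zero,
        Int.toNat_of_nonneg (sub_nonneg.2 (hM i.2)), sub_add_cancel])
  exact fun i hi => k ⟨i, hi⟩ (Finset.mem_univ _)

theorem Ko.amp (h : Ko n m b C a L p D) : AmpOn D p := (h.smp.ampOn_smul h.a0).congr h.lin

theorem Ko.lc (h : Ko n m b C a L p D) (Q : Pl K) : 0 ≤ ld (n + 1) L Q := by
  obtain ⟨z, e⟩ := h.int Q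
  exact nonneg_of_mul_nonneg_right (e ▸ z.cast_nonneg) (Nat.cast_pos.2 h.m0)

theorem Ko.pre (h : Ko n m b C a L p D) : Pre n m b C L p 0 := by
  have o : ∀ w, On n (p + 0) w → On n D w := fun w e =>
    (Pr.on_iff res' h.ff h.smp h.amp).2 (add_zero p ▸ e)
  refine ⟨h.ff, h.m0, h.b2, h.prn, h.int, ?_, ?_, .zero, ?_, h.rp, .zero, h.nn, le_rfl,
    fun w e => ?_, fun _ _ => .inl rfl, ?_⟩
  · simpa using h.amp.smp
  · simpa using h.amp.big_iff.1 h.big
  · simpa using Dsc.zero h.amp.smp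
  · obtain ⟨r, x, -, y⟩ := h.idx w (o w e)
    exact ⟨r, x, y⟩
  · simpa using h.cen

theorem Vm.mono (h : Vm a p D l j u) (a0 : 0 ≤ a) (p0 : 0 ≤ p) (e : l ≤ l') : Vm a p D l' j u :=
  ⟨h.1.trans (mul_le_mul_of_nonneg_right e a0),
    h.2.mono (add_le_add le_rfl (smul_le_smul_of_nonneg_right e p0))⟩

/-- monomials of small level are constant -/
theorem Ko.low (h : Ko n m b C a L p D) {t : ℝ} (t0 : 0 < t)
    (al : ∀ G, Rep p G → ∀ w, t * G w ≤ ld (n + 1) L w + p w) (l0 : 0 < l) (l1 : l < 1)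
    (l2 : 2 * l < t) (v : Vm a p D l j u) (u0 : u ≠ 0) : mo u j ∈ Algebra.adjoin ℂ ∅ := by
  have a0 := h.a0
  have s0 := v.2.resolve_left u0
  have s1 : 0 ≤ l - j / a := by
    rw [sub_nonneg, div_le_iff₀ a0]
    exact (le_abs_self _).trans v.1
  have r : Rep p ((2 * l)⁻¹ • (dv u + ((j : ℝ) • D + l • p) + (l - j / a) • p)) :=
    ⟨smul_nonneg (by positivity) (add_nonneg s0 (smul_nonneg s1 h.nn)), by
      rw [show (2 * l)⁻¹ • (dv u + ((j : ℝ) • D + l • p) + (l - j / a) • p) - p =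
        (2 * l)⁻¹ • (dv u - (j / a) • (p - a • D)) by match_scalars <;> field_simp; ring]
      exact Submodule.smul_mem _ _ (sub_mem (dv_mem_Prn u) (Submodule.smul_mem _ _ h.lin))⟩
  have d : Dsc D (dv u + (j : ℝ) • D) := (Dsc.dv h.smp u).add ((Dsc.refl h.smp).smul _)
  have z : ∀ Q, On n D Q → (dv u + (j : ℝ) • D) Q = 0 := fun Q o => by
    obtain ⟨r0, r1, ⟨z, r2⟩, -, r3⟩ := h.idx Q o
    have r4 : (0 : ℝ) < r0 := Nat.cast_pos.2 r1
    have e : r0 * (dv u + (j : ℝ) • D) Q = (r0 * Q.ord u + j * z : ℤ) := by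
      simp only [Pi.add_apply, Pi.smul_apply, smul_eq_mul, dv_apply]
      push_cast
      rw [← r2]
      ring
    have x := al _ r Q
    have y := s0 Q
    have p0 : 0 ≤ p Q := h.nn Q
    have l3 := h.lc Q
    simp only [Pi.add_apply, Pi.smul_apply, smul_eq_mul, Pi.zero_apply] at x y e ⊢
    rw [mul_left_comm, inv_mul_le_iff₀ (by positivity)] at x
    generalize (r0 * Q.ord u + j * z : ℤ) = k at e
    generalize dv u Q = c at *
    have k1 : ((-1 : ℤ) : ℝ) < k := by
      push_cast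
      nlinarith [mul_nonneg r4.le y, mul_nonneg r4.le l3, mul_nonneg r4.le p0]
    have k2 : (k : ℝ) < (1 : ℤ) := by
      push_cast
      refine lt_of_mul_lt_mul_left ?_ t0.le
      have x1 : t * (c + j * D Q) ≤ 2 * l * (ld (n + 1) L Q + p Q) := by
        nlinarith [mul_nonneg t0.le (mul_nonneg l0.le p0), mul_nonneg t0.le (mul_nonneg s1 p0)]
      nlinarith [mul_le_mul_of_nonneg_left x1 r4.le]
    rw [Int.cast_lt] at k1 k2
    rw [show k = 0 by omega, Int.cast_zero] at e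
    exact (mul_eq_zero.1 e).resolve_left r4.ne'
  have e : dv u + (j : ℝ) • D = 0 := le_antisymm
    (Pr.le_hull res' h.ff h.smp h.big (d.exists_add.choose_spec.2 _ le_rfl).nef (.zero h.smp)
      fun Q o => (z Q o).le)
    (Pr.le_hull res' h.ff (c := 0) h.smp h.big (by simpa using Smp.zero.nef) d
      fun Q o => (z Q o).ge)
  obtain rfl : j = 0 := by_contra fun j0 => by
    have x : D ∈ Prn K := by
      have := (Prn K).smul_mem (j : ℝ)⁻¹ (neg_mem (dv_mem_Prn u))
      rwa [neg_eq_of_add_eq_zero_right e, inv_smul_smul₀ (Int.cast_ne_zero.2 j0)] at this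
    have := (big_iff_dim h.ff h.smp.eff).1 h.big
    rw [(prn_iff_dim h.ff h.smp).1 x] at this
    omega
  obtain ⟨c, rfl⟩ := const_of_sec h.ff (f := u) (.inr (by simpa using e.ge))
  rw [mo, zpow_zero, mul_one, ← IsScalarTower.algebraMap_apply]
  exact algebraMap_mem _ c

theorem sum_h0 (hK : FF K n) (hD : D ∈ Car K) (hp : p ∈ Car K) {H : BD (RatFunc K)}
    [Module.Finite ℂ (H0 H)] (T : Finset ℤ)
    (k : ∀ j ∈ T, ∀ u, Sec ((j : ℝ) • D + l • p) u → Sec H (mo u j)) :
    ∑ j ∈ T, h0 ((j : ℝ) • D + l • p) ≤ h0 H := by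
  have : ∀ j : T, Module.Finite ℂ (H0 (((j : ℤ) : ℝ) • D + l • p)) := fun j =>
    Ba.fin_car hK (add_mem (Submodule.smul_mem _ _ hD) (Submodule.smul_mem _ _ hp))
  let φ : (∀ j : T, H0 (((j : ℤ) : ℝ) • D + l • p)) →ₗ[ℂ] RatFunc K := ∑ j : T,
    LinearMap.mulRight ℂ (RatFunc.X ^ (j : ℤ)) ∘ₗ (IsScalarTower.toAlgHom ℂ K _).toLinearMap ∘ₗ
      (H0 _).subtype ∘ₗ LinearMap.proj j
  have e : ∀ x, φ x = ∑ j : T, mo (x j : K) j := fun x => by simp [φ, mo]
  have := LinearMap.finrank_le_finrank_of_injective (f := φ.codRestrict (H0 H) fun x =>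
    e x ▸ sum_mem fun j _ => mem_H0.2 (k j j.2 _ (mem_H0.1 (x j).2)))
    ((injective_iff_map_eq_zero _).2 fun x z => funext fun j => Subtype.ext
      (linearIndependent_iff'.1 (zpow_ind.comp _ (Subtype.val_injective (p := (· ∈ T)))) _
        (fun j => (x j : K)) (by
          simp only [Algebra.smul_def]
          exact (e x).symm.trans (congrArg Subtype.val z)) j (Finset.mem_univ _)))
  rw [Module.finrank_pi_fintype] at this
  rw [← T.sum_coe_sort]
  exact this

theorem smk2' : SMK2 := fun co al mk n m b C => by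
  obtain ⟨t, t0, al⟩ := al n m b C
  obtain ⟨C', c1, mk⟩ := mk (n + 1) m b (2 * max C 1)
  obtain ⟨c, c0, c2, c3⟩ : ∃ c : ℝ, 0 < c ∧ c ≤ 1 ∧ 2 * c ≤ t :=
    ⟨min 1 (t / 2), by positivity, min_le_left _ _, by linarith [min_le_right 1 (t / 2)]⟩
  have c4 : C' ≤ C' / c := le_div_self (by linarith) c0 c2
  refine ⟨C' / c, c1.trans c4, fun K _ _ a L p D h => ?_⟩
  obtain ⟨Γ, Ψ, H₁, pr, s1, s2⟩ := co K n m b C a L p D h
  obtain ⟨μ, mo1, μ0, r, ct⟩ := mk _ Γ Ψ H₁ pr
  have key : ∀ k, ((k.1 + 1 : ℕ) : ℕ∞) ≤ rk (VV a p D (μ k)) := fun k =>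
    (r k).trans (rk_le fun f hf => by
      obtain ⟨x, rfl, y⟩ := s1 _ f (μ0 k).le hf
      exact sum_mem fun j hj =>
        Algebra.subset_adjoin ⟨j, _, Finsupp.mem_support_iff.1 hj, y j hj, rfl⟩)
  have lo : ∀ k, c ≤ μ k := fun k => le_of_not_gt fun z => by
    have := (key k).trans ((rk_le (T := ∅) ?_).trans_eq rk_empty)
    · simp at this
    rintro _ ⟨j, u, u0, v, rfl⟩
    exact h.low t0 (fun G => al K L p G h.pre) (μ0 k) (by linarith) (by linarith) v u0
  refine ⟨fun k => max (μ k) 1, mo1.max monotone_const, fun k => le_max_right _ _,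
    fun k => (key k).trans (Matroid.eRk_mono _ ?_), fun l T l1 hT => ?_⟩
  · rintro _ ⟨j, u, u0, v, rfl⟩
    exact ⟨j, u, u0, v.mono h.a0.le h.nn (le_max_left _ _), rfl⟩
  have := Ba.fin_car pr.ff (Submodule.smul_mem _ l pr.smp.car)
  have x := sum_h0 h.ff h.rD.car h.rp.car T fun j hj u s => s2 l j u ⟨hT j hj, s⟩
  refine (le_trans (by exact_mod_cast x) (ct l l1)).trans (mul_le_mul c4 (Finset.prod_le_prod
    (fun k _ => by have := μ0 k; positivity) fun k _ => ?_)
    (Finset.prod_nonneg fun k _ => by have := μ0 k; positivity) (by positivity))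
  have := μ0 k
  rw [add_le_add_iff_left, div_mul_eq_mul_div, div_div]
  refine div_le_div_of_nonneg_left (by positivity) (by positivity) ?_
  rw [mul_max_of_nonneg _ _ c0.le, mul_one]
  exact max_le (mul_le_of_le_one_left this.le c2) (lo k)

end Vale.Agent.P283B.Sp
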