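import Vale.Agent.P283B.MK.St
import Vale.Agent.P283B.LL.St

/-!
# P283B, block SP: the data at a central lc place of a germ; cone and suspension (statements)

`K` has dimension `n + 2`, `E` is an lc place of the complement `div g / N` with the centre `x`.
Cone and suspension are taken over the residue field of `E`.
-/

set_option linter.unusedVariables false

open Set

noncomputable section

namespace Vale.Agent.P283B.Sp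

open P287D Mk

section defs

variable {K : Type} [Field K] [Algebra ℂ K]

/-- the transcendence degree of a set -/
def rk (S : Set K) : ℕ∞ := (AlgebraicIndependent.matroid ℂ K).eRk S

/-- a Laurent polynomial (the same as `Rul.lp`) -/
def lau (u : RatFunc K) (c : ℤ →₀ K) : RatFunc K :=
  c.sum fun j a => algebraMap K (RatFunc K) a * u ^ j

/-- a Laurent monomial -/
def mo (u : K) (j : ℤ) : RatFunc K := algebraMap K (RatFunc K) u * RatFunc.X ^ j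

/-- a log Calabi-Yau pair with the polarisation `Ψ + H₁`; `r` is an index at the prime -/
structure Pre (d n b : ℕ) (C : ℝ) (Γ Ψ H₁ : BD K) : Prop where
  ff : FF K (d + 1)
  n0 : 0 < n
  b2 : 2 ≤ b
  prn : Γ ∈ Prn K
  int : ∀ w, ∃ z : ℕ, n * ld (d + 1) Γ w = z
  smp : Smp (Ψ + H₁)
  big : Big (Ψ + H₁)
  s1 : Smp H₁
  des : Dsc (Ψ + H₁) H₁
  r0 : CarQ Ψ
  r1 : CarQ H₁
  p0 : 0 ≤ Ψ
  p1 : 0 ≤ H₁
  idx : ∀ w, On d (Ψ + H₁) w → ∃ r : ℕ, 0 < r ∧ (∃ z : ℤ, r * (b * Ψ w) = z) ∧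
    r * (ld (d + 1) Γ w + Ψ w) ≤ 1
  sup : ∀ w, On d (Ψ + H₁) w → H₁ w = 0 ∨ ld (d + 1) Γ w + Ψ w = 0
  cen : Cen C (ld (d + 1) Γ) (Ψ + H₁)

/-- the data on the residue field -/
structure Ko (n m b : ℕ) (C a : ℝ) (L p D : BD K) : Prop where
  ff : FF K (n + 1)
  m0 : 0 < m
  b2 : 2 ≤ b
  a0 : 0 < a
  ra : ∃ x : ℚ, a = x
  prn : L ∈ Prn K
  int : ∀ Q, ∃ z : ℕ, m * ld (n + 1) L Q = z
  smp : Smp D
  big : Big D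
  rD : CarQ D
  rp : CarQ p
  nn : 0 ≤ p
  lin : p - a • D ∈ Prn K
  idx : ∀ Q, On n D Q → ∃ r : ℕ, 0 < r ∧ (∃ z : ℤ, r * D Q = z) ∧ (∃ z : ℤ, r * (b * p Q) = z) ∧
    r * (ld (n + 1) L Q + p Q) ≤ 1
  cen : Cen C (ld (n + 1) L) p

/-- `u X ^ j` has the level `l` -/
def Vm (a : ℝ) (p D : BD K) (l : ℝ) (j : ℤ) (u : K) : Prop :=
  |(j : ℝ)| ≤ l * a ∧ Sec ((j : ℝ) • D + l • p) u

/-- the monomials of level `l` -/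
def VV (a : ℝ) (p D : BD K) (l : ℝ) : Set (RatFunc K) :=
  {y | ∃ j u, u ≠ 0 ∧ Vm a p D l j u ∧ y = mo u j}

/-- the complement -/
def lam (N : ℕ) (g : K) : BD K := (N : ℝ)⁻¹ • dv g

/-- the difference of the complement and the pair -/
def psi (N : ℕ) (g : K) (Γ : BD K) : BD K := lam N g - Γ

/-- the initial divisor -/
def rE (E : Pl K) (Z β : BD K) : BD E.κ := res E (β - β E • Z)

/-- the initial form -/
def ini (E : Pl K) (f : K) : RatFunc E.κ := mo (E.rd (f / E.t ^ E.ord f)) (E.ord f)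

/-- a klt germ at a closed point with an lc complement -/
structure Gr (n q N : ℕ) (Γ : BD K) (s₀ : Finset K) (R₀ : Pl K) (g : K) : Prop where
  ff : FF K (n + 2)
  q0 : 0 < q
  N0 : 0 < N
  rel : Rel (n + 1) (mx s₀) s₀ Γ
  cl : res R₀ (mx s₀) ∈ Prn R₀.κ
  cf : Cf (n + 1) (mx s₀) Γ (Frq q) (Ov s₀ R₀)
  klt : ∀ P, Ov s₀ R₀ P → 0 < ld (n + 2) Γ P
  lcc : LcC (n + 1) N Γ (Ov s₀ R₀) g

/-- an lc place of the complement with the centre `x` -/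
structure Lp (n N : ℕ) (s₀ : Finset K) (R₀ : Pl K) (g : K) (E : Pl K) : Prop where
  ov : Ov s₀ R₀ E
  pt : CLe (mx s₀) E R₀
  lc : ld (n + 2) (lam N g) E = 0

/-- `Z` is the exceptional divisor `E` on the model where `-E` is ample over the germ -/
structure At (n q N : ℕ) (Γ : BD K) (s₀ : Finset K) (R₀ : Pl K) (g : K) (E : Pl K) (Z : BD K) :
    Prop extends Gr n q N Γ s₀ R₀ g, Lp n N s₀ R₀ g E where
  hl : ∃ σ A, Lz.Hl s₀ R₀ E σ A ∧ ∀ P, Ov s₀ R₀ P → σ * Z P = -mx A P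
  one : Z E = 1
  nef : ∃ c : ℝ, Nef (c • mx s₀ - Z)
  rat : CarQ Z
  nn : ∀ P, Ov s₀ R₀ P → 0 ≤ Z P
  le : ∀ D, Dsc (mx s₀) D → (∀ P, Ov s₀ R₀ P → 0 ≤ D P) → ∀ P, Ov s₀ R₀ P → D E * Z P ≤ D P
  prn : ∀ D, Dsc (mx s₀) D → res E D ∈ Prn E.κ
  pos : ∀ β ∈ Car K, β E = 0 → (∀ P, Ov s₀ R₀ P → 0 ≤ β P) → 0 ≤ res E β
  smp : Smp (rE E Z (dv E.t))
  big : Big (rE E Z (dv E.t))
  idx : ∀ Q, On n (rE E Z (dv E.t)) Q →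
    0 < ld (n + 1) (adj (n + 1) E (Γ + ld (n + 2) Γ E • Z)) Q → ∃ r : ℕ, 0 < r ∧
      r * ld (n + 1) (adj (n + 1) E (Γ + ld (n + 2) Γ E • Z)) Q ≤ 1 ∧
      ∀ β, Dsc (mx s₀) β → (∀ P, On (n + 1) (mx s₀) P → Ov s₀ R₀ P → ∃ z : ℤ, β P = z) →
        ∃ z : ℤ, r * rE E Z β Q = z

/-- centrality of `E` (the output of G2) -/
def Dc (n N : ℕ) (C : ℝ) (Γ : BD K) (g : K) (E : Pl K) (Z : BD K) : Prop :=
  Cen C (ld (n + 1) (adj (n + 1) E (lam N g))) (rE E Z (psi N g Γ))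

end defs

/-- a statement for all fields -/
def For1 (A : ∀ (K : Type) [Field K] [Algebra ℂ K], Prop) : Prop :=
  ∀ (K : Type) [Field K] [Algebra ℂ K], A K

/-! ### projective rows -/

/-- **SUSP**: `Γ' = Γ + dlog (s - 1) + div s / b`,
`H' = max (Ψ + H₁, H₁ - div s / b) + div (s - 1) / b` -/
def SUSP : Prop := For1 fun K _ _ => ∀ (d n b : ℕ) (C : ℝ) (Γ Ψ H₁ : BD K), Pre d n b C Γ Ψ H₁ →
  ∃ Γ' H' : BD (RatFunc K), In (d + 1) (n * b) Γ' H' ∧ Cen (max C 1) (ld (d + 2) Γ') H' ∧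
    (∀ (l : ℝ) f, 0 ≤ l → Sec (l • H') f → ∃ c, f = lau (RatFunc.X - 1) c ∧
      ∀ j ∈ c.support, j ≤ 0 ∧ -l ≤ b * j ∧ Sec (l • (Ψ + H₁)) (c j)) ∧
    (∀ (l : ℝ) f (k k' : ℕ), Sec (l • (Ψ + H₁)) f → l ≤ b * k → k ≤ k' →
      Sec (((b : ℝ) * k') • H') (algebraMap K (RatFunc K) f / (RatFunc.X - 1) ^ k)) ∧
    (H₁ = 0 → (∀ w, On (d + 1) H' w → H' w = 0 ∨ b * H' w = 1) ∧ ∀ G, Rep Ψ G →
      ∃ G', Rep H' G' ∧ ∀ Q, ∃ (w : Pl (RatFunc K)) (e : ℝ), 0 < e ∧ e * G Q ≤ G' w ∧ H' w = 0 ∧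
        ld (d + 2) Γ' w = e * (ld (d + 1) Γ Q + Ψ Q))

/-- **CONE**: `β = div X - D`, `Γ = L + dlog X`, `Ψ = p + a β⁺`, `H₁ = a β⁻` -/
def CONE : Prop := For1 fun K _ _ => ∀ (n m b : ℕ) (C a : ℝ) (L p D : BD K), Ko n m b C a L p D →
  ∃ Γ Ψ H₁ : BD (RatFunc K), Pre (n + 1) m b (2 * max C 1) Γ Ψ H₁ ∧
    (∀ (l : ℝ) f, 0 ≤ l → Sec (l • (Ψ + H₁)) f → ∃ c, f = lau RatFunc.X c ∧
      ∀ j ∈ c.support, Vm a p D l j (c j)) ∧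
    ∀ (l : ℝ) j u, Vm a p D l j u → Sec (l • (Ψ + H₁)) (mo u j)

/-- **ALS1**: the alpha invariant if `b H` is a reduced divisor -/
def ALS1 : Prop := ∀ (d n b : ℕ) (C : ℝ), 0 < b → ∃ t : ℝ, 0 < t ∧ For1 fun K _ _ =>
  ∀ Γ H G : BD K, In d n Γ H → Cen C (ld (d + 1) Γ) H →
    (∀ w, On d H w → H w = 0 ∨ b * H w = 1) → Rep H G →
    ∀ w, t * G w ≤ ld (d + 1) Γ w + b * H w

/-- **ALS**: the alpha invariant of the pair `Γ - Ψ` -/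
def ALS : Prop := ∀ (d n b : ℕ) (C : ℝ), ∃ t : ℝ, 0 < t ∧ For1 fun K _ _ =>
  ∀ Γ Ψ G : BD K, Pre d n b C Γ Ψ 0 → Rep Ψ G → ∀ w, t * G w ≤ ld (d + 1) Γ w + Ψ w

/-- **MK1**: Minkowski for the class `Pre` -/
def MK1 : Prop := ∀ (d n b : ℕ) (C : ℝ), ∃ C' : ℝ, 1 ≤ C' ∧ For1 fun K _ _ =>
  ∀ Γ Ψ H₁ : BD K, Pre d n b C Γ Ψ H₁ → ∃ μ : Fin (d + 1) → ℝ, Monotone μ ∧ (∀ k, 0 < μ k) ∧
    (∀ k : Fin (d + 1), ((k.1 + 1 : ℕ) : ℕ∞) ≤ rk {f | Sec (μ k • (Ψ + H₁)) f}) ∧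
    ∀ l : ℝ, 1 ≤ l → (h0 (l • (Ψ + H₁)) : ℝ) ≤ C' * ∏ k, (1 + C' * l / μ k)

/-- **MK2**: Minkowski for the graded ring -/
def MK2 : Prop := ∀ (n m b : ℕ) (C : ℝ), ∃ C' : ℝ, 1 ≤ C' ∧ For1 fun K _ _ =>
  ∀ (a : ℝ) (L p D : BD K), Ko n m b C a L p D → ∃ μ : Fin (n + 2) → ℝ, Monotone μ ∧
    (∀ k, 1 ≤ μ k) ∧ (∀ k : Fin (n + 2), ((k.1 + 1 : ℕ) : ℕ∞) ≤ rk (VV a p D (μ k))) ∧
    ∀ (l : ℝ) (T : Finset ℤ), 1 ≤ l → (∀ j ∈ T, |(j : ℝ)| ≤ l * a) →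
      (∑ j ∈ T, h0 ((j : ℝ) • D + l • p) : ℝ) ≤ C' * ∏ k, (1 + C' * l / μ k)

/-! ### local rows -/

/-- **DATA** (G3) -/
def DATA : Prop := For1 fun K _ _ => ∀ (n q N : ℕ) (Γ : BD K) (s₀ : Finset K) (R₀ : Pl K) (g : K)
  (E : Pl K), Gr n q N Γ s₀ R₀ g → Lp n N s₀ R₀ g E → ∃ Z, At n q N Γ s₀ R₀ g E Z

/-- **G2** (with G1): a central lc place -/
def G2 : Prop := ∀ n q N : ℕ, ∃ C : ℝ, For1 fun K _ _ => ∀ (Γ : BD K) (s₀ : Finset K) (R₀ : Pl K)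
  (g : K), Gr n q N Γ s₀ R₀ g → ld (n + 2) (lam N g) R₀ = 0 → ∃ E, Lp n N s₀ R₀ g E ∧
    ∀ Z, At n q N Γ s₀ R₀ g E Z → Dc n N C Γ g E Z

/-- a statement for all data at a place -/
def ForA (n q N : ℕ) (A : ∀ (K : Type) [Field K] [Algebra ℂ K],
    BD K → Finset K → Pl K → K → Pl K → BD K → Prop) : Prop :=
  For1 fun K _ _ => ∀ Γ s₀ R₀ g E Z, At n q N Γ s₀ R₀ g E Z → A K Γ s₀ R₀ g E Z

/-- **KO**: the data on the residue field -/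
def KO : Prop := ∀ (n q N : ℕ) (C : ℝ), ForA n q N fun K _ _ Γ s₀ R₀ g E Z => Dc n N C Γ g E Z →
  Ko n N (2 * q * N) C (ld (n + 2) Γ E) (adj (n + 1) E (lam N g)) (rE E Z (psi N g Γ))
    (rE E Z (dv E.t))

/-- **LIFT**: adjoint sections on the residue field lift -/
def LIFT : Prop := ∀ n q N : ℕ, ForA n q N fun K _ _ Γ s₀ R₀ g E Z => ∀ (l : ℝ) (j : ℤ) (u : E.κ),
  u ≠ 0 → 0 ≤ l → 0 ≤ l * ld (n + 2) Γ E + j → (∀ Q, 0 < ld (n + 1) (adj (n + 1) E (lam N g)) Q +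
    (dv u + (j : ℝ) • rE E Z (dv E.t) + l • rE E Z (psi N g Γ)) Q) →
  ∃ f ∈ Lz.Sl (Ov s₀ R₀) (psi N g Γ) (l + q * N), f ≠ 0 ∧ E.ord f = j ∧ E.rd (f / E.t ^ j) = u

/-- **G4**: centrality on the germ -/
def G4 : Prop := ∀ (n q N : ℕ) (C : ℝ), ∃ C' : ℝ, 1 ≤ C' ∧ ForA n q N fun K _ _ Γ s₀ R₀ g E Z =>
  Dc n N C Γ g E Z → ∀ D, Dsc (mx s₀) D → (∀ P, Ov s₀ R₀ P → 0 ≤ D P) → ∀ R, Ov s₀ R₀ R →
    D R * ld (n + 2) Γ E ≤ C' * D E * ld (n + 2) Γ R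

/-- **G5**: successive minima and the count at finite level -/
def G5 : Prop := ∀ (n q N : ℕ) (C : ℝ), ∃ C' : ℝ, 1 ≤ C' ∧ ForA n q N fun K _ _ Γ s₀ R₀ g E Z =>
  Dc n N C Γ g E Z → ∃ μ α, Lz.Ch (n + 1) C' (Ov s₀ R₀) (psi N g Γ) E μ α

/-- leaf -/
def SALS1 : Prop := (∀ d, LC d) → ALS1

/-- leaf -/
def SALS : Prop := SUSP → ALS1 → ALS

/-- leaf -/
def SMK1 : Prop := SUSP → (∀ d, MINK d) → MK1

/-- leaf -/
def SMK2 : Prop := CONE → ALS → MK1 → MK2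

/-- leaf -/
def SG4 : Prop := KO → ALS → G4

/-- leaf -/
def SG5 : Prop := KO → LIFT → MK2 → G5

theorem g45_of (su : SUSP) (co : CONE) (a1 : SALS1) (a : SALS) (m1 : SMK1) (m2 : SMK2) (ko : KO)
    (li : LIFT) (g4 : SG4) (g5 : SG5) (lc : ∀ d, LC d) (mk : ∀ d, MINK d) : G4 ∧ G5 :=
  have b := a su (a1 lc)
  ⟨g4 ko b, g5 ko li (m2 co b (m1 su mk))⟩

theorem lp_iff {K : Type} [Field K] [Algebra ℂ K] {n N : ℕ} {g : K} {P : Pl K} (h : 0 < N) :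
    ld (n + 1) (lam N g) P = 0 ↔ Lh.Lp n N g P := by
  have : (N : ℝ) ≠ 0 := by exact_mod_cast h.ne'
  simp only [ld, dsc, lam, Lh.Lp, Pi.sub_apply, Pi.smul_apply, smul_eq_mul, dv_apply]
  constructor <;> intro e
  · rw [show cn K (n + 1) P + 1 = (N : ℝ)⁻¹ * P.ord g by linarith, mul_inv_cancel_left₀ this]
  · rw [e, inv_mul_cancel_left₀ this]
    ring

theorem cp_of (da : DATA) (g2 : G2) (g4 : G4) (g5 : G5) (n : ℕ) : Lz.CP (n + 1) :=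
  fun q N q0 N2 => by
  obtain ⟨C, h2⟩ := g2 n q N
  obtain ⟨C₄, c4, h4⟩ := g4 n q N C
  obtain ⟨C₅, c5, h5⟩ := g5 n q N C
  have p4 := one_pos.trans_le c4
  refine ⟨C₄⁻¹, C₅, inv_pos.2 p4, c5, fun K _ _ hK Γ s₀ R₀ g co lc lp => ?_⟩
  have N0 : 0 < N := by omega
  have gr : Gr n q N Γ s₀ R₀ g := ⟨hK, q0, N0, co.rel, co.clo, co.cf, co.klt, lc⟩
  obtain ⟨E, e, dc⟩ := h2 K Γ s₀ R₀ g gr ((lp_iff N0).2 lp)
  obtain ⟨Z, a⟩ := da K n q N Γ s₀ R₀ g E gr e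
  obtain ⟨σ, A, hl, -⟩ := a.hl
  refine ⟨E, ⟨e.ov, e.pt, (lp_iff N0).1 e.lc, fun L G s P u => ?_⟩, ⟨σ, A, hl⟩,
    h5 K Γ s₀ R₀ g E Z a (dc Z a)⟩
  have := h4 K Γ s₀ R₀ g E Z a (dc Z a) (dv G - (L : ℝ) • Γ)
    ((Dsc.dv (smp_mx s₀) G).sub (co.rel.pr.des.smul _)) (fun Q v => sub_nonneg.2 (s.2 Q v)) P u
  simp only [Pi.sub_apply, Pi.smul_apply, smul_eq_mul, dv_apply] at this
  rw [mul_assoc, inv_mul_le_iff₀ p4]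
  linarith

end Vale.Agent.P283B.Sp
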