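import Vale.Agent.P283B.LL.Rm
import Vale.Agent.P283B.SP.St
import Vale.Agent.P287D.Ba.PosOn

/-!
# P283B, block SP: ruled models
-/

set_option linter.unusedVariables false
set_option linter.unusedSectionVars false

open Set
open Vale.Agent.P297Z

noncomputable section

namespace Vale.Agent.P283B.Rul

open P287D Wp Cb Ls.Ot

variable {K E : Type} [Field K] [Field E] [Algebra ℂ K] [Algebra ℂ E] [Algebra K E]
  [IsScalarTower ℂ K E] {n m b : ℕ} {u θ j : E} {w : Pl E} {Q : Pl K} {Λ Λ' Γ A₀ A₁ : BD K}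

theorem on_amp (hK : FF K (n + 1)) (h : AmpOn Λ Λ') : On n Λ Q ↔ On n Λ' Q :=
  let ⟨s, a, a1, a2⟩ := Gm.exists_sys₀ h.smp_left Q.ring
  (Gm.on_iff res' balg hK a a1 a2).trans (Gm.on_iff res' balg hK (h.symm.trans a) a1 a2).symm

theorem ne_pl (hK : FF K (n + 1)) : Nonempty (Pl K) := by
  obtain ⟨y, hy, -⟩ := id hK
  obtain ⟨P, -⟩ := On.val hK (B := (⊥ : Subalgebra ℂ K)) Subalgebra.fg_bot (f := y 0)
    fun z => hy.transcendental 0 (isIntegral_trans (R := ℂ) _ z).isAlgebraic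
  exact ⟨P⟩

theorem Ru.cl_pow (r : Ru K u) {k : ℕ} (k0 : 0 < k) (x : E) :
    x ∈ Gm.Cl (range (algebraMap K E) ∪ {u ^ k}) :=
  (Subfield.closure_le (t := (Gm.Cl _).toSubfield)).2 (by
    rintro _ (⟨f, rfl⟩ | ⟨_, rfl⟩)
    · exact Gm.sub_Cl (.inl ⟨f, rfl⟩)
    · exact Gm.mem_Cl.2 (IsAlgebraic.of_pow k0
        (Gm.mem_Cl.1 (Gm.sub_Cl (.inr rfl))))) (r.cl ▸ Subfield.mem_top x)

/-- the join of two classes -/
def rm (u : E) (b : ℕ) (A₀ A₁ : BD K) : BD E :=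
  pb (algebraMap K E) A₀ ⊔ (pb (algebraMap K E) A₁ - (b : ℝ)⁻¹ • dv u)

theorem rm_apply (w : Pl E) : rm u b A₀ A₁ w =
    max (pb (algebraMap K E) A₀ w) (pb (algebraMap K E) A₁ w - w.ord u / b) := by
  rw [div_eq_inv_mul]; rfl

/-- **RM** -/
theorem rm_spec (hK : FF K (n + 1)) (r : Ru K u) (b0 : 0 < b) (s0 : Smp A₀) (q0 : CarQ A₀)
    (s1 : Smp A₁) (q1 : CarQ A₁) : Smp (rm u b A₀ A₁) ∧ CarQ (rm u b A₀ A₁) ∧ ∀ Λ, Smp Λ →
      (Big (Λ + (A₀ + A₁)) → Big (pb (algebraMap K E) Λ + rm u b A₀ A₁)) ∧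
      ∀ w, On (n + 1) (pb (algebraMap K E) Λ + rm u b A₀ A₁) w → (Trv (algebraMap K E) w ∧
        (0 < w.ord u → Big (Λ + A₀)) ∧ (w.ord u < 0 → Big (Λ + A₁))) ∨
        ∃ P, Gs u w P ∧ (w.ord u : ℝ) = b * (w.ord (algebraMap K E P.t) * (A₁ P - A₀ P)) ∧
          On n (Λ + (A₀ + A₁)) P := by
  have hE := r.ff hK
  have ok := okL (L := K) hE
  obtain ⟨m₀, t₀, m0, -, e0⟩ := s0.exists_nsmul q0.rat
  obtain ⟨m₁, t₁, m1, -, e1⟩ := s1.exists_nsmul q1.rat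
  obtain ⟨s₀, n0, a0⟩ := exists_mx_nsmul t₀ (m₁ * b)
  obtain ⟨s₁, n1, a1⟩ := exists_mx_nsmul t₁ (m₀ * b)
  have k0 := mul_pos m0 m1
  have i0 : (0 : ℝ) < (m₀ * m₁ * b : ℕ) := by positivity
  have b1 : (b : ℝ) ≠ 0 := by positivity
  rw [← e0, smul_smul, show ((m₁ * b : ℕ) : ℝ) * m₀ = (m₀ * m₁ * b : ℕ) by push_cast; ring] at a0
  rw [← e1, smul_smul, show ((m₀ * b : ℕ) : ℝ) * m₁ = (m₀ * m₁ * b : ℕ) by push_cast; ring] at a1
  have t := pow_ne_zero (m₀ * m₁) r.ne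
  have e : mx (jn (u ^ (m₀ * m₁)) s₀ s₁) = ((m₀ * m₁ * b : ℕ) : ℝ) • rm u b A₀ A₁ := by
    rw [mx_jn hE n0 n1 t, a0, a1, pb_smul, pb_smul, dv_pow]
    funext w
    simp only [rm, Pi.sup_apply, Pi.smul_apply, Pi.sub_apply, smul_eq_mul]
    rw [mul_max_of_nonneg _ _ i0.le]
    congr 1
    push_cast
    field_simp
  have sm : Smp (rm u b A₀ A₁) := .of_smul i0 (e ▸ smp_mx _)
  have am : ∀ {F : Type} [Field F] [Algebra ℂ F] {Λ A : BD F}, Smp Λ → Smp A →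
      AmpOn (Λ + A) (Λ + ((m₀ * m₁ * b : ℕ) : ℝ) • A) := fun hΛ hA => by
    simpa only [add_comm] using amp2 (hA.ampOn_smul i0) hΛ
  refine ⟨sm, ⟨_, mul_pos k0 b0, e ▸ mx_mem_CarZ _⟩, fun Λ hΛ => ⟨fun h => ?_, fun w o => ?_⟩⟩
  · refine (am (ok.smp hΛ) sm).big_iff.2 (e ▸ big_jn hE (r.cl_pow k0) t hΛ n0 n1 ?_)
    rw [a0, a1, ← smul_add]
    exact (am hΛ (s0.add s1)).big_iff.1 h
  rw [on_amp hE (am (ok.smp hΛ) sm), ← e] at o
  refine (on_jn hK hE t hΛ n0 n1 o).imp (fun ⟨x, y, z⟩ => ⟨x, fun p => ?_, fun p => ?_⟩)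
    fun ⟨P, l, g, g0, o1, i, e2, o2⟩ => ⟨P, ⟨l, g, _, g0, k0, o1, i⟩, ?_, ?_⟩
  · exact (am hΛ s0).big_iff.2 (a0 ▸ y (by rw [Pl.ord_pow]; positivity))
  · exact (am hΛ s1).big_iff.2 (a1 ▸ z (by
      rw [Pl.ord_pow]; exact mul_neg_of_pos_of_neg (by positivity) p))
  · rw [Pl.ord_mul _ ((map_ne_zero _).2 g0) t, l.ord g, e2, Pl.ord_pow] at o1
    have c0 := congrFun a0 P
    have c1 := congrFun a1 P
    have o3 := congrArg (Int.cast (R := ℝ)) o1
    simp only [mx_apply, Pi.smul_apply, smul_eq_mul] at c0 c1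
    push_cast at o3 c0 c1
    rw [c0, c1] at o3
    refine mul_left_cancel₀ (a := (m₀ * m₁ : ℝ)) (by positivity) ?_
    linarith
  · rwa [a0, a1, ← smul_add, ← on_amp hK (am hΛ (s0.add s1))] at o2

theorem lp_single (c : K) (k : ℤ) : lp u (.single k c) = algebraMap K E c * u ^ k := by
  rw [lp, Finsupp.sum_single_index (by simp)]

theorem lp_add (c d : ℤ →₀ K) : lp u (c + d) = lp u c + lp u d :=
  Finsupp.sum_add_index' (by simp) fun _ _ _ => by rw [map_add, add_mul]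

/-- the terms of a Laurent polynomial at a monomial place -/
theorem Gs.le (hE : FF E m) (u0 : u ≠ 0) (g : Gs u w Q) {c : ℤ →₀ K} {i : ℤ} (h : c i ≠ 0) :
    lp u c ≠ 0 ∧ (w.ord (lp u c) : ℝ) ≤ w.ord (algebraMap K E Q.t) * Q.ord (c i) + i * w.ord u := by
  obtain ⟨p, -, -, -, q⟩ := g.min hE u0 (p := c) fun y => h (by simp [y])
  have := q i h
  rw [Pl.ord_mul _ ((map_ne_zero _).2 h) (zpow_ne_zero i u0), g.lies.ord (c i), Pl.ord_zpow] at this
  exact ⟨p, by exact_mod_cast this⟩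

theorem Gs.add (hE : FF E m) (u0 : u ≠ 0) (g : Gs u w Q) {c : K} (c0 : c ≠ 0) (o : Q.ord c = 0) :
    w.ord (u + algebraMap K E c) ≤ w.ord u ∧ w.ord (u + algebraMap K E c) ≤ 0 := by
  have e : lp u (.single 1 1 + .single 0 c : ℤ →₀ K) = u + algebraMap K E c := by
    simp [lp_add, lp_single]
  have a := (g.le hE u0 (c := .single 1 1 + .single 0 c) (i := 1) (by simp)).2
  have b := (g.le hE u0 (c := .single 1 1 + .single 0 c) (i := 0) (by simpa using c0)).2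
  rw [e] at a b
  exact ⟨by simpa using a, by simpa [o] using b⟩

/-- the terms of a Laurent polynomial at the places `0` and `∞` -/
theorem trv_min (t : Trv (algebraMap K E) w) (u0 : u ≠ 0) (o : w.ord u ≠ 0) {c : ℤ →₀ K}
    (c0 : c ≠ 0) : ∃ i, c i ≠ 0 ∧ w.ord (lp u c) = i * w.ord u := by
  classical
  let τ : ℤ → E := fun i => algebraMap K E (c i) * u ^ i
  have τ0 : ∀ i ∈ c.support, τ i ≠ 0 := fun i z =>
    mul_ne_zero ((map_ne_zero _).2 (Finsupp.mem_support_iff.1 z)) (zpow_ne_zero i u0)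
  have τ1 : ∀ i ∈ c.support, w.ord (τ i) = i * w.ord u := fun i z => by
    rw [Pl.ord_mul _ ((map_ne_zero _).2 (Finsupp.mem_support_iff.1 z)) (zpow_ne_zero i u0), t.ord,
      Pl.ord_zpow, zero_add]
  obtain ⟨k, k2, k1⟩ := c.support.exists_min_image (fun i => i * w.ord u)
    (Finsupp.support_nonempty_iff.2 c0)
  have s := Gm.mx_sum (P := w) (c.support.erase k) (f := fun i => τ i / τ k) fun i z => by
    obtain ⟨z1, z2⟩ := Finset.mem_erase.1 z
    refine mx_iff.2 (.inr ?_)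
    rw [Pl.ord_div _ (τ0 i z2) (τ0 k k2), τ1 i z2, τ1 k k2, sub_pos]
    exact (k1 i z2).lt_of_ne fun y => z1 (mul_right_cancel₀ o y).symm
  have e : lp u c / τ k = 1 + ∑ i ∈ c.support.erase k, τ i / τ k := by
    rw [lp, Finsupp.sum, Finset.sum_div, ← Finset.add_sum_erase _ _ k2, div_self (τ0 k k2)]
  have nz : ¬ Mx w (lp u c / τ k) := fun z => not_mx_one (by simpa [e] using z.sub s)
  have n0 : lp u c ≠ 0 := fun z => nz (by rw [z, zero_div]; exact mx_zero)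
  have m : lp u c / τ k ∈ w.ring := e ▸ add_mem (one_mem _) s.mem
  have o' := ord_zero_of m (mt (rd_eq_zero m).1 nz)
  rw [Pl.ord_div _ n0 (τ0 k k2), sub_eq_zero, τ1 k k2] at o'
  exact ⟨k, Finsupp.mem_support_iff.1 k2, o'⟩

/-- monomial places with a prescribed rational slope -/
theorem exists_gs' (hE : FF E m) (t : Transcendental K u) (Q : Pl K) (x : ℚ) :
    ∃ w, Gs u w Q ∧ (w.ord u : ℝ) = w.ord (algebraMap K E Q.t) * x := by
  obtain ⟨w, g, e⟩ := exists_gs hE t Q x.num x.pos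
  refine ⟨w, g, mul_left_cancel₀ (a := (x.den : ℝ)) (by simp) ?_⟩
  have := congrArg (Int.cast (R := ℝ)) e
  push_cast at this
  rw [this, Rat.cast_def]
  field_simp

/-- the ramification index is bounded by the index -/
theorem Gs.e_le (h : Ru K u) (hK : FF K n) (g : Gs u w Q) {r : ℕ} (r0 : 0 < r) {x : ℝ} {z : ℤ}
    (e : (w.ord u : ℝ) = w.ord (algebraMap K E Q.t) * x) (hz : r * x = z) :
    ∃ r' : ℕ, 0 < r' ∧ (r : ℝ) = r' * w.ord (algebraMap K E Q.t) := by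
  obtain ⟨k, hk⟩ := g.dvd h hK (r := r) (k := z) (by
    have : (r : ℝ) * w.ord u = z * w.ord (algebraMap K E Q.t) := by rw [e, ← hz]; ring
    exact_mod_cast this)
  have k0 : 0 < k := pos_of_mul_pos_right (hk ▸ Int.natCast_pos.2 r0) g.lies.e_pos.le
  obtain ⟨k, rfl⟩ := Int.eq_ofNat_of_zero_le k0.le
  exact ⟨k, by omega, by rw [mul_comm]; exact_mod_cast hk⟩

/-- centrality for the multiples of the class -/
theorem cen_smul {C t : ℝ} {a p G : BD K} (c : Mk.Cen C a p) (p0 : 0 ≤ p) (z : a Q = 0)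
    (t0 : 0 ≤ t) (r : Rep (t • p) G) : G Q ≤ t * (C * p Q) := by
  rcases t0.eq_or_lt with rfl | t1
  · by_contra! h
    rw [zero_mul] at h
    have := (c Q z).2 _ (by simpa using (Rep.refl p0).add (r.smul (c := (|C * p Q| + 1) / G Q)
      (by positivity)))
    rw [Pi.add_apply, Pi.smul_apply, smul_eq_mul, div_mul_cancel₀ _ h.ne'] at this
    linarith [le_abs_self (C * p Q), (c Q z).1, abs_mul C (p Q)]
  · have := (c Q z).2 _ (by simpa [t1.ne'] using r.smul (inv_nonneg.2 t0))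
    rwa [Pi.smul_apply, smul_eq_mul, inv_mul_le_iff₀ t1] at this

/-- it is enough to test centrality on sections -/
theorem rep_le {F : Type} [Field F] [Algebra ℂ F] (hF : FF F (n + 1)) {H G : BD F} (q : CarQ H)
    {w : Pl F} {x : ℝ} (k : ∀ (m : ℕ) f, f ≠ 0 → Sec ((m : ℝ) • H) f → w.ord f + m * H w ≤ m * x)
    (r : Rep H G) : G w ≤ x := by
  simpa using On.rep_ind hF q (p := fun a G => G w ≤ a * x) (by simp)
    (fun a G b G' y z => by rw [Pi.add_apply]; linarith)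
    (fun a G c c0 y => by
      rw [Pi.smul_apply, smul_eq_mul, mul_assoc]; exact mul_le_mul_of_nonneg_left y c0) k r

/-- a bound for all slopes in one direction -/
theorem slope_le {x y : ℝ} (h : ∀ k : ℕ, 0 < k → k * x ≤ y) : x ≤ 0 := by
  by_contra! p
  obtain ⟨k, hk⟩ := exists_nat_gt (y / x)
  have := h (k + 1) k.succ_pos
  rw [div_lt_iff₀ p] at hk
  push_cast at this
  linarith

end Vale.Agent.P283B.Rul
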