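import Vale.Agent.P283B.SP.St
import Vale.Agent.P283B.LL.JmpSt

/-!
# P283B, block SP: from functions of bounded size to centrality (statements)
-/

set_option linter.unusedVariables false

noncomputable section

namespace Vale.Agent.P283B.Sp

open P287D

/-- **UGG**: uniform generation of the adjoint ideal at a place which is monomial in `y` -/
def UGG : Prop := ForS fun n K _ _ => ∀ (Θ : BD K) (b : Finset K) (E : Pl K) (y : Fin (n + 1) → K),
  Smp (-Θ) → Big (-Θ) → (∀ f ∈ b, f ≠ 0) → Lz.Ind E y → (∀ i, ∃ f ∈ b, ∃ g ∈ b, y i = f / g) →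
  ∃ f, f ≠ 0 ∧ ∀ (R : Pl K) (z : ℚ) (m : ℝ), (R = E → z ≠ 1) → 0 ≤ z → 0 ≤ m →
    (∀ h ∈ b, (E.ord h : ℝ) * z ≤ R.ord h + m) →
    (E.ord f + ld (n + 1) Θ E) * z < R.ord f + ld (n + 1) Θ R + (n + 2) * m

/-- leaf -/
def SG2 : Prop := UGG → (∀ n, Lj.JMP n) → (∀ n, Lj.FRM n) → LIFT → G2

end Vale.Agent.P283B.Sp
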